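import Vale.Agent.P057K.Defs

/-! P057K: averaging over `(α, θ)` and deletion, for polynomial progressions. -/

set_option autoImplicit false

namespace Vale.Agent.P057K

namespace ABS

open Finset

variable {P D : ℕ} [Fact P.Prime]

/-- the point of the progression. -/
def pt (a : (Fin D → ZMod P) × (Fin D → ZMod P)) (n : ℤ) : Fin D → ZMod P :=
  fun i => a.1 i + (n : ZMod P) * a.2 i

lemma card_pt (X : Finset (Fin D → ZMod P)) (n : ℤ) :
    ((Finset.univ : Finset ((Fin D → ZMod P) × (Fin D → ZMod P))).filter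
      (fun a => pt a n ∈ X)).card = X.card * P ^ D := by
  classical
  have hc : (P ^ D) = (Finset.univ : Finset (Fin D → ZMod P)).card := by
    rw [Finset.card_univ, Fintype.card_fun, ZMod.card, Fintype.card_fin]
  rw [hc, ← Finset.card_product]
  apply Finset.card_bij (fun a _ => (pt a n, a.2))
  · intro a ha
    rw [Finset.mem_filter] at ha
    simp [ha.2]
  · intro a _ b _ hab
    rw [Prod.mk.injEq] at hab
    obtain ⟨h1, h2⟩ := hab
    have h3 : a.1 = b.1 := by
      funext i
      have := congrFun h1 i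
      simp only [pt, h2] at this
      exact add_right_cancel this
    exact Prod.ext h3 h2
  · intro b hb
    rw [Finset.mem_product] at hb
    refine ⟨(fun i => b.1 i - (n : ZMod P) * b.2 i, b.2), ?_, ?_⟩
    · rw [Finset.mem_filter]
      refine ⟨Finset.mem_univ _, ?_⟩
      have : pt ((fun i => b.1 i - (n : ZMod P) * b.2 i, b.2) :
          (Fin D → ZMod P) × (Fin D → ZMod P)) n = b.1 := by
        funext i; simp [pt]
      rw [this]; exact hb.1
    · apply Prod.ext
      · funext i; simp [pt]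
      · rfl

lemma card_bad (X : Finset (Fin D → ZMod P)) (B : Finset (ZMod P)) (n d : ℤ)
    (hd : (d : ZMod P) ≠ 0)
    (Q : (Fin D → ZMod P) × (Fin D → ZMod P) → Prop) [DecidablePred Q]
    (hQ : ∀ a, Q a → pt a n ∈ X ∧ ∀ i, (d : ZMod P) * a.2 i ∈ B) :
    ((Finset.univ : Finset ((Fin D → ZMod P) × (Fin D → ZMod P))).filter Q).card
      ≤ X.card * B.card ^ D := by
  classical
  have hc : (B.card ^ D) = (Fintype.piFinset (fun _ : Fin D => B)).card := by
    rw [Fintype.card_piFinset]; simp
  rw [hc, ← Finset.card_product]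
  apply Finset.card_le_card_of_injOn (fun a => (pt a n, fun i => (d : ZMod P) * a.2 i))
  · intro a ha
    have ha' := (Finset.mem_filter.1 (Finset.mem_coe.1 ha)).2
    have := hQ a ha'
    simp only [Finset.coe_product, Set.mem_prod, Finset.mem_coe, Fintype.mem_piFinset]
    exact this
  · intro a _ b _ hab
    simp only [Prod.mk.injEq] at hab
    obtain ⟨h1, h2⟩ := hab
    have h4 : a.2 = b.2 := by
      funext i
      have := congrFun h2 i
      exact mul_left_cancel₀ hd this
    have h3 : a.1 = b.1 := by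
      funext i
      have := congrFun h1 i
      simp only [pt, h4] at this
      exact add_right_cancel this
    exact Prod.ext h3 h4

/-- the lifted coefficients. -/
def lift (a : (Fin D → ZMod P) × (Fin D → ZMod P)) (c : ℕ → ℤ) (t : ℕ) : Fin D → ZMod P :=
  fun i => (if t = 0 then a.1 i else 0) + (c t : ZMod P) * a.2 i

lemma pt_newt (a : (Fin D → ZMod P) × (Fin D → ZMod P)) (c : ℕ → ℤ) (s j : ℕ) :
    (fun i => newt s (fun t => lift a c t i) j) = pt a (newt s c j) := by
  funext i
  simp only [pt, newt, lift]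
  push_cast
  simp only [mul_add, Finset.sum_add_distrib]
  congr 1
  · simp
  · rw [Finset.sum_mul]
    exact Finset.sum_congr rfl (fun t _ => by ring)

lemma bound_diff (s N : ℕ) (w : ℕ → ℤ) (hw : ∀ i, i ≤ s → 1 ≤ w i ∧ w i ≤ N) :
    |diff s w 0| ≤ 2 ^ s * (N : ℤ) := by
  unfold diff
  refine (Finset.abs_sum_le_sum_abs _ _).trans ?_
  have h1 : ∀ i ∈ Finset.range (s + 1),
      |(-1 : ℤ) ^ (s - i) * (s.choose i : ℤ) * w (0 + i)| ≤ (s.choose i : ℤ) * (N : ℤ) := by
    intro i hi
    have hi' := Nat.lt_succ_iff.1 (Finset.mem_range.1 hi)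
    obtain ⟨h1, h2⟩ := hw i hi'
    rw [abs_mul, abs_mul, abs_pow, abs_neg, abs_one, one_pow, one_mul, zero_add, Nat.abs_cast]
    have h3 : |w i| ≤ N := by rw [abs_le]; constructor <;> omega
    exact mul_le_mul_of_nonneg_left h3 (Int.natCast_nonneg _)
  refine (Finset.sum_le_sum h1).trans ?_
  rw [← Finset.sum_mul]
  have h4 : ∑ i ∈ Finset.range (s + 1), (s.choose i : ℤ) = 2 ^ s := by
    exact_mod_cast Nat.sum_range_choose s
  rw [h4]

end ABS

open ABS in
theorem abs_ (hN1 : S_N1) : S_ABS := by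
  intro P N D k m hP hm hmk hN hD hPN X B hX hNB
  classical
  have hP0 : 0 < (P:ℝ) := by exact_mod_cast hP.out.pos
  have hN1' : (1:ℝ) ≤ N := by exact_mod_cast hN
  -- the sets
  let W := (Fin D → ZMod P) × (Fin D → ZMod P)
  let A : W → Finset ℤ := fun a => (Finset.Icc (1 : ℤ) N).filter (fun n => pt a n ∈ X)
  let H : ℕ := 2 ^ m * N
  let ds : Finset ℤ := (Finset.Icc (-(H : ℤ)) H).erase 0
  let pairs : Finset (ℤ × ℤ) := (Finset.Icc (1 : ℤ) N) ×ˢ ds
  let isbad : W → ℤ × ℤ → Prop := fun a q =>
    pt a q.1 ∈ X ∧ ∀ i, (q.2 : ZMod P) * a.2 i ∈ B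
  let Bad : W → Finset (ℤ × ℤ) := fun a => pairs.filter (fun q => isbad a q)
  have hds : ds.card = 2 * H := by
    have h0 : (0 : ℤ) ∈ Finset.Icc (-(H : ℤ)) H := by
      rw [Finset.mem_Icc]; omega
    rw [Finset.card_erase_of_mem h0, Int.card_Icc]
    omega
  have hpairs : pairs.card = N * (2 * H) := by
    simp only [pairs]
    rw [Finset.card_product, hds, Int.card_Icc]
    congr 1
    omega
  -- first moment
  have hA : ∑ a : W, ((A a).card : ℝ) = (N : ℝ) * (X.card * (P : ℝ) ^ D) := by
    have h1 : ∑ a : W, (A a).card = ∑ n ∈ Finset.Icc (1 : ℤ) N,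
        ((Finset.univ : Finset W).filter (fun a => pt a n ∈ X)).card := by
      simp only [A, Finset.card_filter]
      exact Finset.sum_comm
    have h2 : ∑ a : W, (A a).card = N * (X.card * P ^ D) := by
      rw [h1, Finset.sum_congr rfl (fun n _ => card_pt X n)]
      simp
    exact_mod_cast h2
  have hB : ∑ a : W, ((Bad a).card : ℝ) ≤ (N : ℝ) * (2 * H) * (X.card * (B.card : ℝ) ^ D) := by
    have h1 : ∑ a : W, (Bad a).card = ∑ q ∈ pairs,
        ((Finset.univ : Finset W).filter (fun a => isbad a q)).card := by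
      simp only [Bad, Finset.card_filter]
      exact Finset.sum_comm
    have h2 : ∑ a : W, (Bad a).card ≤ N * (2 * H) * (X.card * B.card ^ D) := by
      rw [h1]
      calc ∑ q ∈ pairs, ((Finset.univ : Finset W).filter (fun a => isbad a q)).card
          ≤ ∑ _q ∈ pairs, (X.card * B.card ^ D) := by
            apply Finset.sum_le_sum
            intro q hq
            have hq' := Finset.mem_product.1 hq
            have hq2 := Finset.mem_erase.1 hq'.2
            have hq3 := Finset.mem_Icc.1 hq2.2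
            apply card_bad X B q.1 q.2 ?_ _ (fun a ha => ha)
            intro h0
            rw [ZMod.intCast_zmod_eq_zero_iff_dvd] at h0
            have h4 := Int.le_of_dvd (abs_pos.2 hq2.1) ((dvd_abs _ _).2 h0)
            have h5 : |q.2| ≤ H := abs_le.2 hq3
            have h6 : (H : ℤ) < P := by exact_mod_cast hPN
            omega
        _ = N * (2 * H) * (X.card * B.card ^ D) := by
            rw [Finset.sum_const, hpairs, smul_eq_mul]
    exact_mod_cast h2
  -- choose
  have hcardW : ((Finset.univ : Finset W).card : ℝ) = (P : ℝ) ^ D * (P : ℝ) ^ D := by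
    rw [Finset.card_univ, Fintype.card_prod, Fintype.card_fun, ZMod.card, Fintype.card_fin]
    push_cast; ring
  have hHr : (H : ℝ) = 2 ^ m * N := by
    simp only [H]; push_cast; ring
  have hBP : 2 * (H : ℝ) * (B.card : ℝ) ^ D ≤ (P : ℝ) ^ D / 2 := by
    rw [div_pow, ← mul_div_assoc, div_le_iff₀ (by positivity), pow_succ] at hNB
    rw [hHr]
    linarith
  have hsum : ∑ _a : W, ((N : ℝ) / 2 * X.card / (P : ℝ) ^ D)
      ≤ ∑ a : W, (((A a).card : ℝ) - ((Bad a).card : ℝ)) := by
    rw [Finset.sum_sub_distrib, hA, Finset.sum_const, nsmul_eq_mul, hcardW]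
    have e : (P : ℝ) ^ D * (P : ℝ) ^ D * ((N : ℝ) / 2 * X.card / (P : ℝ) ^ D)
        = (N : ℝ) * X.card * (P : ℝ) ^ D / 2 := by
      field_simp
    rw [e]
    have h1 : (N : ℝ) * (2 * H) * (X.card * (B.card : ℝ) ^ D)
        ≤ (N : ℝ) * X.card * ((P : ℝ) ^ D / 2) := by
      have : (N : ℝ) * (2 * H) * (X.card * (B.card : ℝ) ^ D)
        = (N : ℝ) * X.card * (2 * H * (B.card : ℝ) ^ D) := by ring
      rw [this]
      exact mul_le_mul_of_nonneg_left hBP (by positivity)
    nlinarith [hB, h1]
  obtain ⟨a, _, ha⟩ := Finset.exists_le_of_sum_le (Finset.univ_nonempty) hsum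
  -- deletion
  refine ⟨A a \ (Bad a).image Prod.fst, ?_, ?_, ?_⟩
  · exact (Finset.sdiff_subset).trans (Finset.filter_subset _ _)
  · intro c hc
    by_contra hcon
    push Not at hcon
    obtain ⟨s1, hs1, hs1m, hcs1⟩ := hcon
    -- the top index
    have hne : ((Finset.Icc 1 m).filter (fun s => c s ≠ 0)).Nonempty :=
      ⟨s1, by simp [hs1, hs1m, hcs1]⟩
    obtain ⟨s0, hs0, hmax⟩ : ∃ s0 ∈ (Finset.Icc 1 m).filter (fun s => c s ≠ 0),
        ∀ s ∈ (Finset.Icc 1 m).filter (fun s => c s ≠ 0), s ≤ s0 :=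
      ⟨_, Finset.max'_mem _ hne, fun s hs => Finset.le_max' _ s hs⟩
    rw [Finset.mem_filter, Finset.mem_Icc] at hs0
    obtain ⟨⟨h1s0, hs0m⟩, hcs0⟩ := hs0
    have hzero : ∀ t, s0 < t → t ≤ m → c t = 0 := by
      intro t ht htm
      by_contra hne
      have := hmax t (by simp [Finset.mem_filter, hne, htm]; omega)
      omega
    have hnewt : ∀ j, newt m c j = newt s0 c j := by
      intro j
      unfold newt
      symm
      apply Finset.sum_subset
      · intro t ht
        rw [Finset.mem_range] at ht ⊢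
        omega
      · intro t ht ht'
        rw [Finset.mem_range] at ht ht'
        rw [hzero t (by omega) (by omega), mul_zero]
    have hmem : ∀ j, j < k → (1 ≤ newt m c j ∧ newt m c j ≤ N) ∧ pt a (newt m c j) ∈ X := by
      intro j hj
      have h1 := (Finset.mem_sdiff.1 (hc j hj)).1
      have h2 := Finset.mem_filter.1 h1
      exact ⟨Finset.mem_Icc.1 h2.1, h2.2⟩
    have hbound : |c s0| ≤ 2 ^ m * (N : ℤ) := by
      rw [← hN1 m c s0 hs0m]
      refine (bound_diff s0 N (newt m c) (fun i hi => (hmem i (by omega)).1)).trans ?_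
      have : (2 : ℤ) ^ s0 ≤ 2 ^ m := pow_le_pow_right₀ (by norm_num) hs0m
      exact mul_le_mul_of_nonneg_right this (Int.natCast_nonneg _)
    have hBi : ∀ i, lift a c s0 i ∈ B := by
      apply hX s0 (lift a c) h1s0 hs0m
      intro j hj
      rw [pt_newt, ← hnewt]
      exact (hmem j hj).2
    have hk0 : 0 < k := by omega
    apply (Finset.mem_sdiff.1 (hc 0 hk0)).2
    rw [Finset.mem_image]
    refine ⟨(newt m c 0, c s0), ?_, rfl⟩
    refine Finset.mem_filter.2 ⟨Finset.mem_product.2 ⟨?_, ?_⟩, ?_, ?_⟩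
    · exact Finset.mem_Icc.2 (hmem 0 hk0).1
    · refine Finset.mem_erase.2 ⟨hcs0, Finset.mem_Icc.2 ?_⟩
      have : |c s0| ≤ (H : ℤ) := by
        simp only [H]; push_cast; exact hbound
      exact abs_le.1 this
    · exact (hmem 0 hk0).2
    · intro i
      have := hBi i
      simp only [lift] at this
      rw [if_neg (by omega), zero_add] at this
      exact this
  · have h1 : ((A a).card : ℝ) - ((Bad a).card : ℝ) ≤ ((A a \ (Bad a).image Prod.fst).card : ℝ) := by
      have h2 := Finset.le_card_sdiff ((Bad a).image Prod.fst) (A a)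
      have h3 : ((Bad a).image Prod.fst).card ≤ (Bad a).card := Finset.card_image_le
      have h4 : (A a).card ≤ (A a \ (Bad a).image Prod.fst).card + (Bad a).card := by omega
      have h5 : ((A a).card : ℝ) ≤ ((A a \ (Bad a).image Prod.fst).card : ℝ) + (Bad a).card := by
        exact_mod_cast h4
      linarith
    refine le_trans ?_ (le_trans ha h1)
    have h7 : (N : ℝ) / 2 * X.card / (P : ℝ) ^ D = (N : ℝ) / 2 * (X.card / (P : ℝ) ^ D) := by ring
    rw [h7]

end Vale.Agent.P057K
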