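import Vale.Agent.P057K.Defs

/-! # P057K, CC: algebra of the constants -/

set_option autoImplicit false

namespace Vale.Agent.P057K

namespace Cc

theorem key (n : ℕ) (hn : 1 ≤ n) (a L : ℝ) (hL : 0 < L) :
    copt n a ((n : ℝ) * 2 ^ (((n : ℝ) - 1) / 2) * (2 * L) ^ (((n : ℝ) - 1) / n)) =
      ((n : ℝ) + 1) * 2 ^ ((n : ℝ) / 2) * L ^ (((n : ℝ) - 1) / (n + 1)) *
        a ^ ((1 : ℝ) / (n + 1)) := by
  have hn0 : (n : ℝ) ≠ 0 := by positivity
  have hn1 : (n : ℝ) + 1 ≠ 0 := by positivity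
  have e1 : (n : ℝ) * 2 ^ (((n : ℝ) - 1) / 2) * (2 * L) ^ (((n : ℝ) - 1) / n) / n =
      2 ^ (((n : ℝ) - 1) / 2 + ((n : ℝ) - 1) / n) * L ^ (((n : ℝ) - 1) / n) := by
    rw [Real.mul_rpow (by norm_num) hL.le, Real.rpow_add (by norm_num)]
    field_simp
  have e2 : (2 ^ (((n : ℝ) - 1) / 2 + ((n : ℝ) - 1) / n) * L ^ (((n : ℝ) - 1) / n)) ^
      ((n : ℝ) / (n + 1)) = 2 ^ ((n : ℝ) / 2 - 1 / (n + 1)) * L ^ (((n : ℝ) - 1) / (n + 1)) := by
    rw [Real.mul_rpow (by positivity) (by positivity), ← Real.rpow_mul (by norm_num),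
      ← Real.rpow_mul hL.le]
    congr 2
    · field_simp
      ring
    · field_simp
  unfold copt
  rw [e1, e2, Real.rpow_sub (by norm_num)]
  have h2 : (2 : ℝ) ^ ((1 : ℝ) / (n + 1)) ≠ 0 := (Real.rpow_pos_of_pos (by norm_num) _).ne'
  field_simp

end Cc

theorem cc : S_CC := by
  have hl2 : 0 < Real.log 2 := Real.log_pos (by norm_num)
  constructor
  · intro n m hn hm
    have hm' : (0 : ℝ) < m := by positivity
    have hL : 0 < (m : ℝ) * Real.log 2 := by positivity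
    have h := Cc.key n hn ((m : ℝ) * Real.log 2) ((m : ℝ) * Real.log 2) hL
    have e : CC n (2 * m) = (n : ℝ) * 2 ^ (((n : ℝ) - 1) / 2) *
        (2 * ((m : ℝ) * Real.log 2)) ^ (((n : ℝ) - 1) / n) := by
      unfold CC
      congr 2
      push_cast
      ring
    rw [e, h]
    unfold CC
    rw [mul_assoc, ← Real.rpow_add hL]
    push_cast
    congr 2
    · congr 1
      ring
    · have hn1 : (n : ℝ) + 1 ≠ 0 := by positivity
      field_simp
      ring
  · intro n hn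
    have h := Cc.key n hn (Real.log (9 / 5)) (Real.log 2) hl2
    have e : CC n 2 = (n : ℝ) * 2 ^ (((n : ℝ) - 1) / 2) *
        (2 * Real.log 2) ^ (((n : ℝ) - 1) / n) := by
      unfold CC
      norm_num
    rw [e, h]

end Vale.Agent.P057K
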