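import Mathlib

/-! P057, Q2 for every `k ≥ 4`: an improved constant in Rankin's lower bound for `r_k(N)`.
Definitions and modules. -/

set_option autoImplicit false

namespace Vale.Agent.P057K

noncomputable section

/-- Newton form: the value at `j` of the sequence of degree `≤ m` with differences
`c 0, …, c m` at `0`. -/
def newt {R : Type*} [CommRing R] (m : ℕ) (c : ℕ → R) (j : ℕ) : R :=
  ∑ s ∈ Finset.range (m + 1), (j.choose s : R) * c s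

/-- the `s`-th difference of `w` at `j`. -/
def diff {R : Type*} [CommRing R] (s : ℕ) (w : ℕ → R) (j : ℕ) : R :=
  ∑ i ∈ Finset.range (s + 1), (-1) ^ (s - i) * (s.choose i : R) * w (j + i)

/-- `A` contains no nonconstant polynomial progression of degree `≤ m` with `k` terms. -/
def NoPoly (k m : ℕ) (A : Finset ℤ) : Prop :=
  ∀ c : ℕ → ℤ, (∀ j, j < k → newt m c j ∈ A) → ∀ s, 1 ≤ s → s ≤ m → c s = 0

/-- there is such a set in `{1,…,N}` with at least `x` elements. -/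
def LB (k m N : ℕ) (x : ℝ) : Prop :=
  ∃ A : Finset ℤ, A ⊆ Finset.Icc 1 (N : ℤ) ∧ NoPoly k m A ∧ x ≤ (A.card : ℝ)

/-- every polynomial sequence mod `P` of degree `≤ m` with `k` terms inside `Y` lifts to an integer
polynomial sequence through `valMinAbs`. -/
def Gen (P D k m : ℕ) (Y : Finset (Fin D → ZMod P)) : Prop :=
  ∀ (s : ℕ) (c : ℕ → Fin D → ZMod P), s ≤ m →
    (∀ j, j < k → (fun i => newt s (fun t => c t i) j) ∈ Y) →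
    ∀ i, ∃ b : ℕ → ℤ, ∀ j, j < k → (newt s (fun t => c t i) j).valMinAbs = newt s b j

/-! ### NEWT -/

/-- top differences of Newton forms (use it for `ℤ` and `ZMod P`). -/
def S_N1 : Prop :=
  ∀ (m : ℕ) (c : ℕ → ℤ) (s : ℕ), s ≤ m → diff s (newt m c) 0 = c s

def S_N1P : Prop :=
  ∀ (P m : ℕ) (c : ℕ → ZMod P) (s : ℕ), s ≤ m → diff s (newt m c) 0 = c s

/-- vanishing differences: Newton form on `j < k`. -/
def S_N2 : Prop :=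
  ∀ (k s : ℕ) (w : ℕ → ℤ), (∀ j, j + s + 1 < k → diff (s + 1) w j = 0) →
    ∃ b : ℕ → ℤ, ∀ j, j < k → w j = newt s b j

/-- squares. -/
def S_N3 : Prop :=
  ∀ (s : ℕ) (b : ℕ → ℤ), ∃ e : ℕ → ℤ, (∀ j, (newt s b j) ^ 2 = newt (2 * s) e j) ∧
    e (2 * s) = ((2 * s).choose s : ℤ) * (b s) ^ 2

/-- differences of order above the degree vanish. -/
def S_N4 : Prop :=
  ∀ (s t : ℕ) (e : ℕ → ℤ) (j : ℕ), s < t → diff t (newt s e) j = 0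

def S_N4P : Prop :=
  ∀ (P s t : ℕ) (e : ℕ → ZMod P) (j : ℕ), s < t → diff t (newt s e) j = 0

/-! ### ABS -/

/-- averaging over `(α, θ)` and deletion. -/
def S_ABS : Prop :=
  ∀ (P N D k m : ℕ) [Fact P.Prime], 1 ≤ m → m < k → 1 ≤ N → 1 ≤ D → 2 ^ m * N < P →
    ∀ (X : Finset (Fin D → ZMod P)) (B : Finset (ZMod P)),
    (∀ (s : ℕ) (c : ℕ → Fin D → ZMod P), 1 ≤ s → s ≤ m →
      (∀ j, j < k → (fun i => newt s (fun t => c t i) j) ∈ X) → ∀ i, c s i ∈ B) →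
    (2 : ℝ) ^ (m + 1) * N * ((B.card : ℝ) / P) ^ D ≤ 1 / 2 →
    LB k m N ((N : ℝ) / 2 * ((X.card : ℝ) / (P : ℝ) ^ D))

/-! ### SHELL -/

/-- the union of thin shells over the inner set `Λ`. -/
def S_SHELL : Prop :=
  ∀ (P D k m M v T : ℕ) [NeZero P], 1 ≤ m → 2 * m < k → 1 ≤ v →
    ∀ (Y : Finset (Fin D → ZMod P)) (Λ : Finset ℤ), Λ ⊆ Finset.Icc 1 (M : ℤ) →
    NoPoly k (2 * m) Λ → Gen P D k m Y →
    (∀ x ∈ Y, ∑ i, (x i).valMinAbs ^ 2 < (T : ℤ) * (v : ℤ) ^ 2) →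
    ∃ X : Finset (Fin D → ZMod P), X ⊆ Y ∧
      (Y.card : ℝ) * Λ.card ≤ X.card * ((T : ℝ) + 2 ^ (2 * m + 1) * M) ∧
      ∀ (s : ℕ) (c : ℕ → Fin D → ZMod P), 1 ≤ s → s ≤ m →
        (∀ j, j < k → (fun i => newt s (fun t => c t i) j) ∈ X) →
        ∀ i, ∃ b : ℤ, |b| ≤ 2 ^ m * (v : ℤ) ∧ (b : ZMod P) = c s i

/-! ### LEVEL -/

/-- density `τ` available for all large primes. -/
def Dens (D k m : ℕ) (τ : ℝ) : Prop :=
  ∃ P₀ : ℕ, ∀ P : ℕ, P.Prime → P₀ ≤ P →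
    ∃ Y : Finset (Fin D → ZMod P), Gen P D k m Y ∧ τ * (P : ℝ) ^ D ≤ (Y.card : ℝ)

/-- one level of the nested construction. -/
def S_LEVEL : Prop :=
  ∀ (k m N D M : ℕ) (y τ : ℝ), 1 ≤ m → 2 * m < k → 1 ≤ N → 1 ≤ D → 1 ≤ M →
    32 * (D : ℝ) * (2 ^ (m + 2) * (N : ℝ)) ^ ((2 : ℝ) / D) ≤ M → 0 ≤ y → 0 < τ →
    LB k (2 * m) M y → Dens D k m τ → LB k m N ((N : ℝ) * τ * (y / M) / 2 ^ (2 * m + 4))

/-- the standard box. -/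
def S_GENBOX : Prop :=
  ∀ (D k m : ℕ), 1 ≤ m → m < k → 1 ≤ D → Dens D k m ((1 / 2) * ((1 / 2 : ℝ) ^ m) ^ D)

/-- the outer set of density `5/9 - o(1)`. -/
def S_GENOUT : Prop :=
  ∀ (D k : ℕ) (η : ℝ), 4 ≤ k → 1 ≤ D → 0 < η → η ≤ 1 / 12 →
    Dens D k 1 ((5 / 9 - 3 * η) ^ D * (η / D))

/-! ### OPT -/

/-- the optimal constant. -/
def copt (n : ℕ) (a C : ℝ) : ℝ :=
  ((n : ℝ) + 1) * a ^ ((1 : ℝ) / (n + 1)) * (C / n) ^ ((n : ℝ) / (n + 1)) *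
    2 ^ ((1 : ℝ) / (n + 1))

/-- choice of the dimension and of the number of shells. -/
def S_OPT : Prop :=
  ∀ (n m : ℕ) (a C ε : ℝ), 1 ≤ n → 0 < a → 0 < C → 0 < ε → ∃ ε' : ℝ, 0 < ε' ∧
    ∀ (M₀ : ℕ) (Q : ℝ), 1 ≤ Q → ∃ N₀ : ℕ, ∀ N : ℕ, N₀ ≤ N → ∃ D M : ℕ,
      1 ≤ D ∧ 1 ≤ M ∧ M₀ ≤ M ∧
      32 * (D : ℝ) * (2 ^ (m + 2) * (N : ℝ)) ^ ((2 : ℝ) / D) ≤ M ∧
      (a + ε') * D + (C + ε') * (Real.log M) ^ ((1 : ℝ) / n) + Real.log Q + Real.log D ≤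
        (copt n a C + ε) * (Real.log N) ^ ((1 : ℝ) / (n + 1))

/-! ### INDUCT and FINAL -/

/-- the constant of Rankin and O'Bryant. -/
def CC (n m : ℕ) : ℝ :=
  (n : ℝ) * 2 ^ (((n : ℝ) - 1) / 2) * ((m : ℝ) * Real.log 2) ^ (((n : ℝ) - 1) / n)

/-- algebra of the constants. -/
def S_CC : Prop :=
  (∀ n m : ℕ, 1 ≤ n → 1 ≤ m → copt n ((m : ℝ) * Real.log 2) (CC n (2 * m)) = CC (n + 1) m) ∧
  (∀ n : ℕ, 1 ≤ n → copt n (Real.log (9 / 5)) (CC n 2) =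
    ((n : ℝ) + 1) * 2 ^ ((n : ℝ) / 2) * (Real.log 2) ^ (((n : ℝ) - 1) / (n + 1)) *
      (Real.log (9 / 5)) ^ ((1 : ℝ) / (n + 1)))

/-- polynomial version of the lower bound of Rankin and O'Bryant. -/
def S_INNER : Prop :=
  ∀ n m k : ℕ, 1 ≤ n → 1 ≤ m → 2 ^ (n - 1) * m < k → ∀ ε : ℝ, 0 < ε →
    ∃ N₀ : ℕ, ∀ N : ℕ, N₀ ≤ N →
      LB k m N ((N : ℝ) * Real.exp (-((CC n m + ε) * (Real.log N) ^ ((1 : ℝ) / n))))

/-- `A` contains no `k`-term arithmetic progression `a, a+d, …, a+(k-1)d` with `d > 0`. -/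
def NoAP (k : ℕ) (A : Finset ℕ) : Prop :=
  ∀ a d : ℕ, 0 < d → ¬ ∀ j : ℕ, j < k → a + j * d ∈ A

/-- `r_k(N)`. -/
def r (k N : ℕ) : ℕ :=
  open Classical in
  ((Finset.Icc 1 N).powerset.filter (fun A => NoAP k A)).sup Finset.card

/-- the theorem. -/
def S_FINAL : Prop :=
  ∀ k : ℕ, 4 ≤ k → ∀ ε : ℝ, 0 < ε → ∃ N₀ : ℕ, ∀ N : ℕ, N₀ ≤ N →
    (N : ℝ) * Real.exp (-(((Nat.clog 2 k : ℝ) * 2 ^ (((Nat.clog 2 k : ℝ) - 1) / 2) *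
        (Real.log 2) ^ (((Nat.clog 2 k : ℝ) - 2) / (Nat.clog 2 k)) *
        (Real.log (9 / 5)) ^ ((1 : ℝ) / (Nat.clog 2 k)) + ε) *
          (Real.log N) ^ ((1 : ℝ) / (Nat.clog 2 k)))) ≤ (r k N : ℝ)

end

end Vale.Agent.P057K
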