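import Vale.Agent.P057K.Defs

/-! P057K: the induction and the final theorem (modules INNER and FINAL, helper27). -/

set_option autoImplicit false

namespace Vale.Agent.P057K

theorem LB.mono {k m N : ℕ} {x y : ℝ} (h : LB k m N y) (hxy : x ≤ y) : LB k m N x := by
  obtain ⟨A, h1, h2, h3⟩ := h
  exact ⟨A, h1, h2, hxy.trans h3⟩

/-- one step of the induction -/
theorem step_gen (hL : S_LEVEL) (hO : S_OPT) (k n m : ℕ) (hn : 1 ≤ n) (hm : 1 ≤ m)
    (h2m : 2 * m < k) (a C : ℝ) (ha : 0 < a) (hC : 0 < C)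
    (hInner : ∀ ε : ℝ, 0 < ε → ∃ N₀ : ℕ, ∀ N : ℕ, N₀ ≤ N →
      LB k (2 * m) N ((N : ℝ) * Real.exp (-((C + ε) * (Real.log N) ^ ((1 : ℝ) / n)))))
    (hDens : ∀ ε : ℝ, 0 < ε → ∃ Q : ℝ, 1 ≤ Q ∧ ∀ D : ℕ, 1 ≤ D → ∃ τ : ℝ, Dens D k m τ ∧
      Real.exp (-((a + ε) * D + Real.log Q + Real.log D)) ≤ τ) :
    ∀ ε : ℝ, 0 < ε → ∃ N₀ : ℕ, ∀ N : ℕ, N₀ ≤ N →
      LB k m N ((N : ℝ) * Real.exp (-((copt n a C + ε) * (Real.log N) ^ ((1 : ℝ) / (n + 1))))) := by
  intro ε hε
  obtain ⟨ε', hε', hopt⟩ := hO n m a C ε hn ha hC hε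
  obtain ⟨M₀, hM₀⟩ := hInner ε' hε'
  obtain ⟨Q, hQ, hD⟩ := hDens ε' hε'
  have h2pos : (1 : ℝ) ≤ 2 ^ (2 * m + 4) := one_le_pow₀ (by norm_num)
  obtain ⟨N₀, hN₀⟩ := hopt M₀ (Q * 2 ^ (2 * m + 4)) (one_le_mul_of_one_le_of_one_le hQ h2pos)
  refine ⟨max N₀ 1, fun N hN => ?_⟩
  obtain ⟨D, M, hD1, hM1, hMM, hbig, hle⟩ := hN₀ N ((le_max_left _ _).trans hN)
  obtain ⟨τ, hτD, hτ⟩ := hD D hD1
  have hτ0 : 0 < τ := lt_of_lt_of_le (Real.exp_pos _) hτ
  have hMr : (0 : ℝ) < M := by exact_mod_cast hM1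
  have hres := hL k m N D M _ τ hm h2m ((le_max_right _ _).trans hN) hD1 hM1 hbig (by positivity)
    hτ0 (hM₀ M hMM) hτD
  refine hres.mono ?_
  have hlogQ : Real.log (Q * 2 ^ (2 * m + 4)) = Real.log Q + Real.log (2 ^ (2 * m + 4)) :=
    Real.log_mul (by linarith) (by positivity)
  have hsimp : (M : ℝ) * Real.exp (-((C + ε') * Real.log M ^ ((1 : ℝ) / n))) / M =
      Real.exp (-((C + ε') * Real.log M ^ ((1 : ℝ) / n))) := by
    field_simp
  rw [hsimp]
  have h2inv : (1 : ℝ) / 2 ^ (2 * m + 4) = Real.exp (-Real.log (2 ^ (2 * m + 4))) := by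
    rw [Real.exp_neg, Real.exp_log (by positivity), one_div]
  have hfin : Real.exp (-((copt n a C + ε) * Real.log N ^ ((1 : ℝ) / (n + 1)))) ≤
      τ * Real.exp (-((C + ε') * Real.log M ^ ((1 : ℝ) / n))) * (1 / 2 ^ (2 * m + 4)) := by
    rw [h2inv]
    calc Real.exp (-((copt n a C + ε) * Real.log N ^ ((1 : ℝ) / (n + 1))))
        ≤ Real.exp (-((a + ε') * D + Real.log Q + Real.log D) +
            -((C + ε') * Real.log M ^ ((1 : ℝ) / n)) + -Real.log (2 ^ (2 * m + 4))) := by
          apply Real.exp_le_exp.mpr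
          rw [hlogQ] at hle
          linarith
      _ = Real.exp (-((a + ε') * D + Real.log Q + Real.log D)) *
            Real.exp (-((C + ε') * Real.log M ^ ((1 : ℝ) / n))) *
            Real.exp (-Real.log (2 ^ (2 * m + 4))) := by
          rw [Real.exp_add, Real.exp_add]
      _ ≤ _ := by
          apply mul_le_mul_of_nonneg_right _ (Real.exp_pos _).le
          exact mul_le_mul_of_nonneg_right hτ (Real.exp_pos _).le
  calc (N : ℝ) * Real.exp (-((copt n a C + ε) * Real.log N ^ ((1 : ℝ) / (n + 1))))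
      ≤ N * (τ * Real.exp (-((C + ε') * Real.log M ^ ((1 : ℝ) / n))) * (1 / 2 ^ (2 * m + 4))) :=
        mul_le_mul_of_nonneg_left hfin (Nat.cast_nonneg _)
    _ = _ := by ring

/-- the singleton -/
theorem LB_one (h1 : S_N1) (k m N : ℕ) (hmk : m < k) (hN : 1 ≤ N) : LB k m N 1 := by
  refine ⟨{1}, ?_, ?_, by simp⟩
  · intro x hx
    rw [Finset.mem_singleton] at hx
    subst hx
    rw [Finset.mem_Icc]
    exact ⟨le_refl _, by exact_mod_cast hN⟩
  · intro c hc s hs1 hsm
    have hval : ∀ j, j < k → newt m c j = 1 := fun j hj => Finset.mem_singleton.mp (hc j hj)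
    have e1 := h1 m c s hsm
    have e2 := h1 s (fun t => if t = 0 then 1 else 0) s le_rfl
    have e3 : ∀ j, newt s (fun t => if t = 0 then (1 : ℤ) else 0) j = 1 := by
      intro j
      unfold newt
      rw [Finset.sum_eq_single 0]
      · simp
      · intro b _ hb; simp [hb]
      · intro h; simp at h
    have e4 : diff s (newt m c) 0 = diff s (newt s (fun t => if t = 0 then (1 : ℤ) else 0)) 0 := by
      unfold diff
      refine Finset.sum_congr rfl fun i hi => ?_
      rw [Finset.mem_range] at hi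
      rw [hval (0 + i) (by omega), e3]
    rw [e1, e2] at e4
    rw [e4]
    simp
    omega

theorem CC_pos (n m : ℕ) (hn : 1 ≤ n) (hm : 1 ≤ m) : 0 < CC n m := by
  unfold CC
  have : (0 : ℝ) < n := by exact_mod_cast hn
  have : (0 : ℝ) < m := by exact_mod_cast hm
  have : 0 < Real.log 2 := Real.log_pos (by norm_num)
  positivity

/-- module INNER -/
theorem inner (h1 : S_N1) (hL : S_LEVEL) (hG : S_GENBOX) (hO : S_OPT) (hC : S_CC) : S_INNER := by
  intro n m k hn
  induction n, hn using Nat.le_induction generalizing m with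
  | base =>
    intro hm hmk ε hε
    refine ⟨1, fun N hN => ?_⟩
    refine (LB_one h1 k m N (by simpa using hmk) hN).mono ?_
    have hNr : (1 : ℝ) ≤ N := by exact_mod_cast hN
    have hlog : 0 ≤ Real.log N := Real.log_nonneg hNr
    have hCC : CC 1 m = 1 := by simp [CC]
    rw [hCC]
    have hp : Real.log N ^ ((1 : ℝ) / (1 : ℕ)) = Real.log N := by simp
    rw [hp]
    have : (N : ℝ) = Real.exp (Real.log N) := (Real.exp_log (by linarith)).symm
    calc (N : ℝ) * Real.exp (-((1 + ε) * Real.log N))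
        = Real.exp (Real.log N) * Real.exp (-((1 + ε) * Real.log N)) := by rw [← this]
      _ = Real.exp (-(ε * Real.log N)) := by rw [← Real.exp_add]; ring_nf
      _ ≤ 1 := by
        rw [Real.exp_le_one_iff]
        have : 0 ≤ ε * Real.log N := by positivity
        linarith
  | succ n hn ih =>
    intro hm hmk ε hε
    have hpow : 2 ^ (n + 1 - 1) * m = 2 ^ (n - 1) * (2 * m) := by
      obtain ⟨n', rfl⟩ : ∃ n', n = n' + 1 := ⟨n - 1, by omega⟩
      simp only [Nat.add_sub_cancel]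
      ring
    have h2m : 2 * m < k := by
      have h3 : 1 * (2 * m) ≤ 2 ^ (n - 1) * (2 * m) :=
        Nat.mul_le_mul_right _ (Nat.one_le_two_pow)
      omega
    have hinner := ih (2 * m) (by omega) (by omega)
    have hmr : (0 : ℝ) < m := by exact_mod_cast hm
    have hlog2 : 0 < Real.log 2 := Real.log_pos (by norm_num)
    have key := step_gen hL hO k n m hn hm h2m ((m : ℝ) * Real.log 2) (CC n (2 * m))
      (by positivity) (CC_pos n (2 * m) hn (by omega)) hinner (by
        intro ε' hε'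
        refine ⟨2, by norm_num, fun D hD => ⟨_, hG D k m hm (by omega) hD, ?_⟩⟩
        have hDr : (1 : ℝ) ≤ D := by exact_mod_cast hD
        have hlogD : 0 ≤ Real.log D := Real.log_nonneg hDr
        have e5 : (1 / 2) * ((1 / 2 : ℝ) ^ m) ^ D =
            Real.exp (-((m : ℝ) * Real.log 2 * D + Real.log 2)) := by
          rw [neg_add, Real.exp_add, Real.exp_neg (Real.log 2), Real.exp_log (by norm_num)]
          have e6 : ((1 / 2 : ℝ) ^ m) ^ D = Real.exp (-((m : ℝ) * Real.log 2 * D)) := by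
            rw [← pow_mul, ← Real.exp_log (show (0 : ℝ) < (1 / 2) ^ (m * D) by positivity),
              Real.log_pow]
            congr 1
            rw [one_div, Real.log_inv]
            push_cast
            ring
          rw [e6]
          ring
        rw [e5]
        apply Real.exp_le_exp.mpr
        have : 0 ≤ ε' * D := by positivity
        linarith) ε hε
    rw [hC.1 n m hn hm] at key
    obtain ⟨N₀, hN₀⟩ := key
    refine ⟨N₀, fun N hN => ?_⟩
    have := hN₀ N hN
    push_cast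
    exact this

/-- passing to `r_k(N)` -/
theorem le_r (k N : ℕ) (x : ℝ) (hk : 2 ≤ k) (h : LB k 1 N x) : x ≤ (r k N : ℝ) := by
  obtain ⟨A, hA1, hA2, hA3⟩ := h
  have hcard : (A.image Int.toNat).card = A.card := by
    apply Finset.card_image_of_injOn
    intro a ha b hb hab
    have h1 := Finset.mem_Icc.mp (hA1 ha)
    have h2 := Finset.mem_Icc.mp (hA1 hb)
    omega
  have hmem : ∀ a : ℕ, a ∈ A.image Int.toNat → (a : ℤ) ∈ A := by
    intro a ha
    rw [Finset.mem_image] at ha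
    obtain ⟨b, hb, rfl⟩ := ha
    have h2 := Finset.mem_Icc.mp (hA1 hb)
    rwa [Int.toNat_of_nonneg (by omega)]
  have : (A.image Int.toNat).card ≤ r k N := by
    classical
    unfold r
    refine Finset.le_sup (f := Finset.card) ?_
    simp only [Finset.mem_filter, Finset.mem_powerset]
    constructor
    · intro a ha
      rw [Finset.mem_image] at ha
      obtain ⟨b, hb, rfl⟩ := ha
      have h2 := Finset.mem_Icc.mp (hA1 hb)
      rw [Finset.mem_Icc]
      omega
    · intro a d hd hall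
      have h3 := hA2 (fun t => if t = 0 then (a : ℤ) else d) (by
        intro j hj
        have h4 := hmem _ (hall j hj)
        have h5 : newt 1 (fun t => if t = 0 then (a : ℤ) else d) j = ((a + j * d : ℕ) : ℤ) := by
          simp [newt, Finset.sum_range_succ]
        rw [h5]
        exact h4) 1 le_rfl le_rfl
      simp at h3
      omega
  rw [hcard] at this
  exact hA3.trans (by exact_mod_cast this)

/-- density of the outer set -/
theorem dens_outer (hG : S_GENOUT) (k : ℕ) (hk : 4 ≤ k) :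
    ∀ ε : ℝ, 0 < ε → ∃ Q : ℝ, 1 ≤ Q ∧ ∀ D : ℕ, 1 ≤ D → ∃ τ : ℝ, Dens D k 1 τ ∧
      Real.exp (-((Real.log (9 / 5) + ε) * D + Real.log Q + Real.log D)) ≤ τ := by
  intro ε hε
  have he1 : Real.exp (-ε) < 1 := by rw [Real.exp_lt_one_iff]; linarith
  set η : ℝ := min (1 / 12) ((5 / 9) * (1 - Real.exp (-ε)) / 3) with hη
  have hη0 : 0 < η := by
    rw [hη]
    apply lt_min (by norm_num)
    have : 0 < 1 - Real.exp (-ε) := by linarith
    positivity
  have hη1 : η ≤ 1 / 12 := min_le_left _ _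
  have hη2 : η ≤ (5 / 9) * (1 - Real.exp (-ε)) / 3 := min_le_right _ _
  have hbase : (5 / 9) * Real.exp (-ε) ≤ 5 / 9 - 3 * η := by linarith
  refine ⟨1 / η, ?_, fun D hD => ⟨_, hG D k η hk hD hη0 hη1, ?_⟩⟩
  · rw [le_div_iff₀ hη0]; linarith
  · have hDr : (1 : ℝ) ≤ D := by exact_mod_cast hD
    have hD0 : (0 : ℝ) < D := by linarith
    have e1 : Real.exp (-((Real.log (9 / 5) + ε) * D + Real.log (1 / η) + Real.log D)) =
        ((5 / 9) * Real.exp (-ε)) ^ D * (η / D) := by
      have e2 : -((Real.log (9 / 5) + ε) * D + Real.log (1 / η) + Real.log D) =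
          (D : ℝ) * (-Real.log (9 / 5) + -ε) + (Real.log η + -Real.log D) := by
        rw [one_div, Real.log_inv]; ring
      rw [e2, Real.exp_add, Real.exp_nat_mul, Real.exp_add, Real.exp_add, Real.exp_neg
        (Real.log (9 / 5)), Real.exp_log (by norm_num), Real.exp_log hη0,
        Real.exp_neg (Real.log D), Real.exp_log hD0]
      norm_num
      rw [div_eq_mul_inv]
    rw [e1]
    apply mul_le_mul_of_nonneg_right _ (by positivity)
    exact pow_le_pow_left₀ (by positivity) hbase D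

/-- module FINAL -/
theorem final (hL : S_LEVEL) (hG : S_GENOUT) (hI : S_INNER) (hO : S_OPT) (hC : S_CC) :
    S_FINAL := by
  intro k hk ε hε
  have hn2 : 2 ≤ Nat.clog 2 k := by
    have : 1 < Nat.clog 2 k := (Nat.lt_clog_iff_pow_lt (by norm_num)).mpr (by omega)
    omega
  obtain ⟨n, hn⟩ : ∃ n, Nat.clog 2 k = n + 1 := ⟨Nat.clog 2 k - 1, by omega⟩
  have hn1 : 1 ≤ n := by omega
  have hpow : 2 ^ n < k := (Nat.lt_clog_iff_pow_lt (by norm_num)).mp (by omega)
  have hpow' : 2 ^ (n - 1) * 2 < k := by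
    obtain ⟨n', rfl⟩ : ∃ n', n = n' + 1 := ⟨n - 1, by omega⟩
    simp only [Nat.add_sub_cancel]
    rw [← pow_succ]
    exact hpow
  have key := step_gen hL hO k n 1 hn1 le_rfl (by omega) (Real.log (9 / 5)) (CC n 2)
    (Real.log_pos (by norm_num)) (CC_pos n 2 hn1 (by norm_num))
    (hI n 2 k hn1 (by norm_num) hpow') (dens_outer hG k hk) ε hε
  rw [hC.2 n hn1] at key
  obtain ⟨N₀, hN₀⟩ := key
  refine ⟨N₀, fun N hN => ?_⟩
  have h5 := le_r k N _ (by omega) (hN₀ N hN)
  rw [hn]
  refine le_trans (le_of_eq ?_) h5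
  have a1 : (((n + 1 : ℕ) : ℝ) - 1) / 2 = (n : ℝ) / 2 := by push_cast; ring
  have a2 : (((n + 1 : ℕ) : ℝ) - 2) / ((n + 1 : ℕ) : ℝ) = ((n : ℝ) - 1) / (n + 1) := by
    push_cast; ring
  have a3 : ((n + 1 : ℕ) : ℝ) = (n : ℝ) + 1 := by push_cast; ring
  rw [a1, a2, a3]

end Vale.Agent.P057K
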