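import Vale.Agent.P057K.Defs

/-! P057K, module GENBOX (helper21): the standard box. -/

set_option autoImplicit false

namespace Vale.Agent.P057K

namespace GenboxH

/-- one coordinate of the box -/
noncomputable def H (P m : ℕ) [NeZero P] : Finset (ZMod P) :=
  Finset.univ.filter fun z => 2 ^ (m + 1) * |z.valMinAbs| < (P : ℤ)

lemma card_H (P m : ℕ) [NeZero P] (hP : 1 ≤ P) : (P : ℝ) / 2 ^ m - 1 ≤ ((H P m).card : ℝ) := by
  set L : ℕ := (P - 1) / 2 ^ (m + 1) with hL
  have h1 : L * 2 ^ (m + 1) ≤ P - 1 := Nat.div_mul_le_self _ _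
  have h2 : P - 1 < (L + 1) * 2 ^ (m + 1) := by
    have := Nat.lt_div_mul_add (a := P - 1) (b := 2 ^ (m + 1)) (by positivity)
    rw [← hL] at this
    nlinarith
  have hp : (2 : ℕ) ^ (m + 1) = 2 * 2 ^ m := by ring
  have hpm : 1 ≤ (2 : ℕ) ^ m := Nat.one_le_two_pow
  have hcard : (Finset.Icc (-(L : ℤ)) L).card ≤ (H P m).card := by
    refine Finset.card_le_card_of_injOn (fun z : ℤ => (z : ZMod P)) ?_ ?_
    · intro z hz
      rw [Finset.mem_coe, Finset.mem_Icc] at hz
      have hzL : |z| ≤ L := abs_le.mpr hz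
      have hLP : (L : ℤ) * 2 ^ (m + 1) < P := by
        have : L * 2 ^ (m + 1) < P := by omega
        exact_mod_cast this
      have h4 : (2 : ℤ) ≤ 2 ^ (m + 1) := by
        rw [pow_succ]
        have : (1 : ℤ) ≤ 2 ^ m := by exact_mod_cast hpm
        linarith
      have h5 : |z| * 2 < P := by
        have h0 : 0 ≤ |z| := abs_nonneg z
        nlinarith
      have hv : ((z : ZMod P)).valMinAbs = z := by
        rw [ZMod.valMinAbs_spec]
        refine ⟨rfl, ?_, ?_⟩
        · have := neg_abs_le z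
          linarith
        · have := le_abs_self z
          linarith
      refine Finset.mem_coe.mpr (Finset.mem_filter.mpr ⟨Finset.mem_univ _, ?_⟩)
      change 2 ^ (m + 1) * |((z : ZMod P)).valMinAbs| < (P : ℤ)
      rw [hv]
      calc 2 ^ (m + 1) * |z| ≤ 2 ^ (m + 1) * (L : ℤ) := by gcongr
        _ < P := by linarith
    · intro z hz w hw hzw
      rw [Finset.mem_coe, Finset.mem_Icc] at hz hw
      have hLP : (L : ℤ) * 2 ^ (m + 1) < P := by
        have : L * 2 ^ (m + 1) < P := by omega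
        exact_mod_cast this
      have h4 : (2 : ℤ) ≤ 2 ^ (m + 1) := by
        rw [pow_succ]
        have : (1 : ℤ) ≤ 2 ^ m := by exact_mod_cast hpm
        linarith
      have hL0 : (0 : ℤ) ≤ L := by positivity
      have h6 : (L : ℤ) * 2 < P := by nlinarith
      have h7 : (P : ℤ) ∣ z - w := by
        have := (ZMod.intCast_eq_intCast_iff_dvd_sub w z P).mp hzw.symm
        exact this
      have h8 : |z - w| < (P : ℤ) := by
        rw [abs_lt]
        constructor <;> linarith [hz.1, hz.2, hw.1, hw.2]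
      have := Int.eq_zero_of_abs_lt_dvd h7 h8
      linarith
  have h3 : (Finset.Icc (-(L : ℤ)) L).card = 2 * L + 1 := by
    rw [Int.card_Icc]
    omega
  rw [h3] at hcard
  have h4 : (P : ℝ) ≤ (L + 1) * 2 ^ (m + 1) := by
    have : P ≤ (L + 1) * 2 ^ (m + 1) := by omega
    exact_mod_cast this
  have h5 : (P : ℝ) / 2 ^ m ≤ 2 * (L + 1) := by
    rw [div_le_iff₀ (by positivity)]
    calc (P : ℝ) ≤ (L + 1) * 2 ^ (m + 1) := h4
      _ = 2 * (L + 1) * 2 ^ m := by ring
  have h6 : (2 * L + 1 : ℝ) ≤ ((H P m).card : ℝ) := by exact_mod_cast hcard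
  linarith

lemma abs_diff_lt (P k m s : ℕ) (hP : 1 ≤ P) (hs : s ≤ m) (w : ℕ → ℤ)
    (hw : ∀ j, j < k → 2 ^ (m + 1) * |w j| < (P : ℤ)) (j : ℕ) (hj : j + s + 1 < k) :
    |diff (s + 1) w j| < (P : ℤ) := by
  have h1 : |diff (s + 1) w j| ≤
      ∑ i ∈ Finset.range (s + 1 + 1), ((s + 1).choose i : ℤ) * |w (j + i)| := by
    unfold diff
    refine (Finset.abs_sum_le_sum_abs _ _).trans (Finset.sum_le_sum fun i _ => ?_)
    rw [abs_mul, abs_mul, abs_pow, abs_neg, abs_one, one_pow, one_mul]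
    rw [abs_of_nonneg (by positivity : (0 : ℤ) ≤ ((s + 1).choose i : ℤ))]
  have h2 : 2 ^ (m + 1) * |diff (s + 1) w j| <
      ∑ i ∈ Finset.range (s + 1 + 1), ((s + 1).choose i : ℤ) * P := by
    calc 2 ^ (m + 1) * |diff (s + 1) w j|
        ≤ 2 ^ (m + 1) * ∑ i ∈ Finset.range (s + 1 + 1), ((s + 1).choose i : ℤ) * |w (j + i)| := by
          gcongr
      _ = ∑ i ∈ Finset.range (s + 1 + 1), ((s + 1).choose i : ℤ) *
            (2 ^ (m + 1) * |w (j + i)|) := by
          rw [Finset.mul_sum]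
          exact Finset.sum_congr rfl fun i _ => by ring
      _ < _ := by
          refine Finset.sum_lt_sum_of_nonempty ⟨0, by simp⟩ fun i hi => ?_
          rw [Finset.mem_range] at hi
          have hc : (0 : ℤ) < ((s + 1).choose i : ℤ) := by
            exact_mod_cast Nat.choose_pos (by omega)
          exact mul_lt_mul_of_pos_left (hw _ (by omega)) hc
  have h3 : ∑ i ∈ Finset.range (s + 1 + 1), ((s + 1).choose i : ℤ) * P = 2 ^ (s + 1) * P := by
    rw [← Finset.sum_mul]
    congr 1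
    exact_mod_cast Nat.sum_range_choose (s + 1)
  rw [h3] at h2
  have h4 : (2 : ℤ) ^ (s + 1) * P ≤ 2 ^ (m + 1) * P := by
    gcongr
    norm_num
  have h5 : (2 : ℤ) ^ (m + 1) * |diff (s + 1) w j| < 2 ^ (m + 1) * P := lt_of_lt_of_le h2 h4
  exact lt_of_mul_lt_mul_left h5 (by positivity)

end GenboxH

theorem genbox (hN2 : S_N2) (hN4P : S_N4P) : S_GENBOX := by
  intro D k m hm hk hD
  refine ⟨2 ^ (m + 1) * D, fun P hP hPP => ?_⟩
  have : Fact P.Prime := ⟨hP⟩
  have : NeZero P := ⟨hP.ne_zero⟩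
  have hP1 : 1 ≤ P := hP.one_lt.le
  refine ⟨Fintype.piFinset fun _ => GenboxH.H P m, ?_, ?_⟩
  · intro s c hs hmem i
    have hw : ∀ j, j < k → 2 ^ (m + 1) * |(newt s (fun t => c t i) j).valMinAbs| < (P : ℤ) := by
      intro j hj
      have h1 := hmem j hj
      rw [Fintype.mem_piFinset] at h1
      have h2 := h1 i
      simp only [GenboxH.H, Finset.mem_filter, Finset.mem_univ, true_and] at h2
      exact h2
    refine hN2 k s (fun j => (newt s (fun t => c t i) j).valMinAbs) fun j hj => ?_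
    have h1 := GenboxH.abs_diff_lt P k m s hP1 hs
      (fun j => (newt s (fun t => c t i) j).valMinAbs) hw j hj
    refine Int.eq_zero_of_abs_lt_dvd ?_ h1
    rw [← ZMod.intCast_zmod_eq_zero_iff_dvd]
    have h2 := hN4P P s (s + 1) (fun t => c t i) j (Nat.lt_succ_self s)
    rw [← h2]
    unfold diff
    push_cast
    exact Finset.sum_congr rfl fun l _ => rfl
  · rw [Fintype.card_piFinset_const]
    have h1 := GenboxH.card_H P m hP1
    have hP0 : (0 : ℝ) < P := by exact_mod_cast hP.pos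
    have hD0 : (0 : ℝ) < D := by exact_mod_cast hD
    have h2 : (2 : ℝ) ^ (m + 1) * D ≤ P := by exact_mod_cast hPP
    have h3 : (0 : ℝ) ≤ (P : ℝ) / 2 ^ m - 1 := by
      rw [sub_nonneg, one_le_div (by positivity)]
      have hD1 : (1 : ℝ) ≤ D := by exact_mod_cast hD
      have h4 : (2 : ℝ) ^ (m + 1) = 2 * 2 ^ m := by ring
      have h5 : (0 : ℝ) < 2 ^ m := by positivity
      nlinarith
    have h4 : (1 / 2 : ℝ) ≤ (1 - 2 ^ m / P) ^ D := by
      have h5 : (2 : ℝ) ^ m / P ≤ 1 / (2 * D) := by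
        rw [div_le_div_iff₀ hP0 (by positivity)]
        calc (2 : ℝ) ^ m * (2 * D) = 2 ^ (m + 1) * D := by ring
          _ ≤ 1 * P := by linarith
      have h6 : (0 : ℝ) ≤ (2 : ℝ) ^ m / P := by positivity
      have h7 : (2 : ℝ) ^ m / P ≤ 1 := by
        refine h5.trans ?_
        rw [div_le_one (by positivity)]
        have hD1 : (1 : ℝ) ≤ D := by exact_mod_cast hD
        linarith
      have h8 := one_add_mul_le_pow (a := -((2 : ℝ) ^ m / P)) (by linarith) D
      have h9 : (D : ℝ) * ((2 : ℝ) ^ m / P) ≤ 1 / 2 := by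
        calc (D : ℝ) * ((2 : ℝ) ^ m / P) ≤ D * (1 / (2 * D)) := by gcongr
          _ = 1 / 2 := by field_simp
      calc (1 / 2 : ℝ) ≤ 1 + D * (-((2 : ℝ) ^ m / P)) := by linarith
        _ ≤ _ := h8
        _ = _ := by ring
    calc 1 / 2 * ((1 / 2 : ℝ) ^ m) ^ D * (P : ℝ) ^ D
        ≤ (1 - 2 ^ m / P) ^ D * (((1 / 2 : ℝ) ^ m) ^ D * (P : ℝ) ^ D) := by
          rw [mul_assoc]
          gcongr
      _ = ((P : ℝ) / 2 ^ m - 1) ^ D := by
          rw [← mul_pow, ← mul_pow]
          congr 1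
          rw [one_div, inv_pow]
          field_simp
      _ ≤ ((GenboxH.H P m).card : ℝ) ^ D := by gcongr
      _ = _ := by push_cast; rfl

end Vale.Agent.P057K
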