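import Vale.Agent.P057K.Defs
import Vale.Agent.P057.Key
import Vale.Agent.P057.Count
import Vale.Agent.P057.Prob
import Vale.Agent.P057.Final

/-! P057K: the outer set (module GENOUT, helper27). -/

set_option autoImplicit false

namespace Vale.Agent.P057K

open Vale.Agent.P057 (good g)

namespace GENOUT

theorem diff_two (w : ℕ → ℤ) (j : ℕ) :
    diff (1 + 1) w j = w j - 2 * w (j + 1) + w (j + 2) := by
  simp [diff, Finset.sum_range_succ]
  ring

theorem newt_zero {R : Type*} [CommRing R] (c : ℕ → R) (j : ℕ) : newt 0 c j = c 0 := by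
  simp [newt]

theorem newt_one {R : Type*} [CommRing R] (c : ℕ → R) (j : ℕ) :
    newt 1 c j = c 0 + (j : R) * c 1 := by
  simp [newt, Finset.sum_range_succ]

/-- the dichotomy on four-term progressions. -/
theorem gap (P : ℕ) (η : ℝ) (hP : Odd P) (hη : 0 < η) (hη1 : η ≤ 1 / 12) (v d : ZMod P)
    (g0 : good P η v) (g1 : good P η (v + d)) (g2 : good P η (v + 2 * d))
    (g3 : good P η (v + 3 * d)) :
    (v.valMinAbs - 2 * (v + d).valMinAbs + (v + 2 * d).valMinAbs = 0 ∧
      (v + d).valMinAbs - 2 * (v + 2 * d).valMinAbs + (v + 3 * d).valMinAbs = 0) ∨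
    24 * η * (P : ℝ) ^ 2 ≤ g P v + g P (v + 3 * d) - g P (v + d) - g P (v + 2 * d) := by
  have : NeZero P := ⟨hP.pos.ne'⟩
  have c0 : ((v.valMinAbs : ℤ) : ZMod P) = v := ZMod.coe_valMinAbs v
  have c1 : (((v + d).valMinAbs : ℤ) : ZMod P) = v + d := ZMod.coe_valMinAbs _
  have c2 : (((v + 2 * d).valMinAbs : ℤ) : ZMod P) = v + 2 * d := ZMod.coe_valMinAbs _
  have c3 : (((v + 3 * d).valMinAbs : ℤ) : ZMod P) = v + 3 * d := ZMod.coe_valMinAbs _
  have s1 : ((v.valMinAbs - 2 * (v + d).valMinAbs + (v + 2 * d).valMinAbs : ℤ) : ZMod P) = 0 := by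
    push_cast [c0, c1, c2]; ring
  have s2 : (((v + d).valMinAbs - 2 * (v + 2 * d).valMinAbs + (v + 3 * d).valMinAbs : ℤ) :
      ZMod P) = 0 := by
    push_cast [c1, c2, c3]; ring
  obtain ⟨e1, h1⟩ := (ZMod.intCast_zmod_eq_zero_iff_dvd _ P).mp s1
  obtain ⟨e2, h2⟩ := (ZMod.intCast_zmod_eq_zero_iff_dvd _ P).mp s2
  rcases Vale.Agent.P057.KEY.core hP hη hη1 h1 h2 g0 g1 g2 g3 with ⟨rfl, rfl⟩ | hbig
  · left
    rw [h1, h2]; simp
  · right
    exact hbig

end GENOUT

open GENOUT in
/-- module GENOUT -/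
theorem genout (h2 : S_N2) : S_GENOUT := by
  intro D k η hk hD hη hη1
  refine ⟨3 + ⌈3 / η⌉₊, fun P hPp hPge => ?_⟩
  have hfact : Fact P.Prime := ⟨hPp⟩
  have hPodd : Odd P := hPp.odd_of_ne_two (by omega)
  have hPr : (0 : ℝ) < P := by exact_mod_cast hPp.pos
  have hDr : (1 : ℝ) ≤ D := by exact_mod_cast hD
  have hP1' : 3 ≤ η * P := by
    have h1 : (3 / η : ℝ) ≤ ⌈3 / η⌉₊ := Nat.le_ceil _
    have h2 : ((⌈3 / η⌉₊ : ℕ) : ℝ) ≤ P := by exact_mod_cast (by omega : ⌈3 / η⌉₊ ≤ P)
    have h3 : 3 / η ≤ P := h1.trans h2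
    rw [div_le_iff₀ hη] at h3; linarith
  obtain ⟨S, hSmem, hScard⟩ := Vale.Agent.P057.count P η hPodd hη hη1
  have hgb : ∀ v ∈ S, 0 ≤ g P v ∧ g P v ≤ 2 * (P : ℝ) ^ 2 := fun v hv =>
    Vale.Agent.P057.g_bound P η hη v ((hSmem v).mp hv)
  set Y' : Finset (Fin D → ZMod P) := Fintype.piFinset (fun _ => S) with hY'
  have hY'card : Y'.card = S.card ^ D := by
    rw [hY', Fintype.card_piFinset]; simp
  have hδ : 0 < 12 * η * (P : ℝ) ^ 2 := by positivity
  obtain ⟨Y, hYsub, hYwin, hYcard⟩ := Vale.Agent.P057.PROB.window Y'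
    (fun x => ∑ i, g P (x i)) (12 * η * (P : ℝ) ^ 2) (D * (2 * (P : ℝ) ^ 2)) hδ
    (by positivity) (by
      intro x hx
      rw [hY', Fintype.mem_piFinset] at hx
      constructor
      · exact Finset.sum_nonneg fun i _ => (hgb _ (hx i)).1
      · calc ∑ i, g P (x i) ≤ ∑ _i : Fin D, 2 * (P : ℝ) ^ 2 :=
              Finset.sum_le_sum fun i _ => (hgb _ (hx i)).2
          _ = D * (2 * (P : ℝ) ^ 2) := by simp)
  refine ⟨Y, ?_, ?_⟩
  · -- genuineness
    intro s c hs hmem i
    have hs' : s = 0 ∨ s = 1 := by omega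
    rcases hs' with rfl | rfl
    · refine ⟨fun _ => (c 0 i).valMinAbs, fun j hj => ?_⟩
      rw [newt_zero, newt_zero]
    · -- degree one
      have hgood : ∀ j, j < k → ∀ i', good P η (c 0 i' + (j : ZMod P) * c 1 i') := by
        intro j hj i'
        have h3 := hYsub (hmem j hj)
        rw [hY', Fintype.mem_piFinset] at h3
        have h4 := (hSmem _).mp (h3 i')
        simpa [newt_one] using h4
      have hmem' : ∀ j, j < k → (fun i' => c 0 i' + (j : ZMod P) * c 1 i') ∈ Y := by
        intro j hj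
        have h3 := hmem j hj
        simpa [newt_one] using h3
      -- four consecutive terms
      have hfour : ∀ j, j + 3 < k →
          (c 0 i + (j : ZMod P) * c 1 i).valMinAbs
            - 2 * (c 0 i + ((j + 1 : ℕ) : ZMod P) * c 1 i).valMinAbs
            + (c 0 i + ((j + 2 : ℕ) : ZMod P) * c 1 i).valMinAbs = 0 ∧
          (c 0 i + ((j + 1 : ℕ) : ZMod P) * c 1 i).valMinAbs
            - 2 * (c 0 i + ((j + 2 : ℕ) : ZMod P) * c 1 i).valMinAbs
            + (c 0 i + ((j + 3 : ℕ) : ZMod P) * c 1 i).valMinAbs = 0 := by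
        intro j hj
        have e1 : ∀ i', c 0 i' + ((j + 1 : ℕ) : ZMod P) * c 1 i' =
            c 0 i' + (j : ZMod P) * c 1 i' + c 1 i' := by intro i'; push_cast; ring
        have e2 : ∀ i', c 0 i' + ((j + 2 : ℕ) : ZMod P) * c 1 i' =
            c 0 i' + (j : ZMod P) * c 1 i' + 2 * c 1 i' := by intro i'; push_cast; ring
        have e3 : ∀ i', c 0 i' + ((j + 3 : ℕ) : ZMod P) * c 1 i' =
            c 0 i' + (j : ZMod P) * c 1 i' + 3 * c 1 i' := by intro i'; push_cast; ring
        have G0 := fun i' => hgood j (by omega) i'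
        have G1 := fun i' => hgood (j + 1) (by omega) i'
        have G2 := fun i' => hgood (j + 2) (by omega) i'
        have G3 := fun i' => hgood (j + 3) (by omega) i'
        simp only [e1] at G1
        simp only [e2] at G2
        simp only [e3] at G3
        rw [e1, e2, e3]
        rcases gap P η hPodd hη hη1 _ _ (G0 i) (G1 i) (G2 i) (G3 i) with h | h
        · exact h
        · exfalso
          have M0 := hmem' j (by omega)
          have M1 := hmem' (j + 1) (by omega)
          have M2 := hmem' (j + 2) (by omega)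
          have M3 := hmem' (j + 3) (by omega)
          simp only [e1] at M1
          simp only [e2] at M2
          simp only [e3] at M3
          have W1 := hYwin _ M0 _ M1
          have W2 := hYwin _ M3 _ M2
          have hnn : ∀ i', 0 ≤ g P (c 0 i' + (j : ZMod P) * c 1 i')
              + g P (c 0 i' + (j : ZMod P) * c 1 i' + 3 * c 1 i')
              - g P (c 0 i' + (j : ZMod P) * c 1 i' + c 1 i')
              - g P (c 0 i' + (j : ZMod P) * c 1 i' + 2 * c 1 i') := by
            intro i'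
            refine le_trans ?_ (Vale.Agent.P057.key P η hPodd hη hη1 _ _ (G0 i') (G1 i') (G2 i')
              (G3 i'))
            positivity
          have hs := Finset.single_le_sum (f := fun i' => g P (c 0 i' + (j : ZMod P) * c 1 i')
              + g P (c 0 i' + (j : ZMod P) * c 1 i' + 3 * c 1 i')
              - g P (c 0 i' + (j : ZMod P) * c 1 i' + c 1 i')
              - g P (c 0 i' + (j : ZMod P) * c 1 i' + 2 * c 1 i')) (fun i' _ => hnn i')
              (Finset.mem_univ i)
          simp only [Finset.sum_sub_distrib, Finset.sum_add_distrib] at hs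
          linarith
      obtain ⟨b, hb⟩ := h2 k 1 (fun j => (c 0 i + (j : ZMod P) * c 1 i).valMinAbs) (by
        intro j hj
        rw [diff_two]
        by_cases h3 : j + 3 < k
        · exact (hfour j h3).1
        · obtain ⟨j', rfl⟩ : ∃ j', j = j' + 1 := ⟨j - 1, by omega⟩
          have h4 := (hfour j' (by omega)).2
          exact h4)
      refine ⟨b, fun j hj => ?_⟩
      rw [newt_one]
      exact hb j hj
  · -- size
    have hs1 : (5 / 9 - 3 * η) * P ≤ (S.card : ℝ) := by
      have : (5 / 9 - 3 * η) * P = (5 / 9 - 2 * η) * P - η * P := by ring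
      linarith
    have hs0 : 0 ≤ 5 / 9 - 3 * η := by linarith
    have hs2 : ((5 / 9 - 3 * η) * P) ^ D ≤ (S.card : ℝ) ^ D :=
      pow_le_pow_left₀ (by positivity) hs1 D
    have hq : (D : ℝ) * (2 * (P : ℝ) ^ 2) / (12 * η * (P : ℝ) ^ 2) + 1 ≤ D / η := by
      have h5 : (D : ℝ) * (2 * (P : ℝ) ^ 2) / (12 * η * (P : ℝ) ^ 2) = (1 / 6) * (D / η) := by
        have := hPr.ne'
        have := hη.ne'
        field_simp
        norm_num
      have h6 : 12 ≤ (D : ℝ) / η := by
        rw [le_div_iff₀ hη]; linarith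
      linarith
    have hq0 : 0 < (D : ℝ) * (2 * (P : ℝ) ^ 2) / (12 * η * (P : ℝ) ^ 2) + 1 := by positivity
    have h7 : (5 / 9 - 3 * η) ^ D * (η / D) * (P : ℝ) ^ D =
        ((5 / 9 - 3 * η) * P) ^ D / (D / η) := by
      rw [mul_pow]
      have := hη.ne'
      have : (D : ℝ) ≠ 0 := by linarith
      field_simp
    rw [h7]
    refine le_trans ?_ hYcard
    rw [hY'card]
    push_cast
    exact div_le_div₀ (by positivity) hs2 hq0 hq

end Vale.Agent.P057K
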