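import Vale.Agent.P057K.Defs

/-!
# P057K module LEVEL: the parameters of one level of the nested construction.
-/

set_option autoImplicit false

namespace Vale.Agent.P057K.LevelX

open Vale.Agent.P057K

theorem LB_mono {k m N : ℕ} {x x' : ℝ} (h : LB k m N x) (hx : x' ≤ x) : LB k m N x' := by
  obtain ⟨A, h1, h2, h3⟩ := h
  exact ⟨A, h1, h2, hx.trans h3⟩

theorem vma (P : ℕ) [NeZero P] (a : ZMod P) : 4 * (a.valMinAbs) ^ 2 ≤ (P : ℤ) ^ 2 := by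
  have h := ZMod.valMinAbs_mem_Ioc a
  obtain ⟨h1, h2⟩ := h
  nlinarith

theorem level_aux (k m N D M : ℕ) (y τ ρ : ℝ) (hA : S_ABS) (hS : S_SHELL)
    (hm : 1 ≤ m) (hk : 2 * m < k) (hN : 1 ≤ N) (hD : 1 ≤ D) (hM : 1 ≤ M)
    (hρ0 : 0 < ρ) (hρD : 2 ^ (m + 2) * (N : ℝ) * ρ ^ D = 1)
    (hρ2 : 32 * (D : ℝ) ≤ M * ρ ^ 2) (hy : 0 ≤ y) (hτ : 0 < τ)
    (hLB : LB k (2 * m) M y) (hDens : Dens D k m τ) :
    LB k m N ((N : ℝ) * τ * (y / M) / 2 ^ (2 * m + 4)) := by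
  obtain ⟨P₀, hP₀⟩ := hDens
  obtain ⟨Λ, hΛ1, hΛ2, hΛ3⟩ := hLB
  obtain ⟨P, hPle, hPp⟩ := Nat.exists_infinite_primes
    (max (2 ^ m * N + 1) (max P₀ ⌈2 ^ (m + 3) / ρ⌉₊))
  have hP1 : 2 ^ m * N < P := by
    have := le_trans (le_max_left _ _) hPle
    omega
  have hP2 : P₀ ≤ P := le_trans (le_trans (le_max_left _ _) (le_max_right _ _)) hPle
  have hP3 : (2 : ℝ) ^ (m + 3) / ρ ≤ P := by
    have h1 : ⌈(2 : ℝ) ^ (m + 3) / ρ⌉₊ ≤ P :=
      le_trans (le_trans (le_max_right _ _) (le_max_right _ _)) hPle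
    exact le_trans (Nat.le_ceil _) (by exact_mod_cast h1)
  have hP3' : (2 : ℝ) ^ (m + 3) ≤ ρ * P := by
    rw [div_le_iff₀ hρ0] at hP3
    linarith [mul_comm (P : ℝ) ρ]
  haveI : Fact P.Prime := ⟨hPp⟩
  haveI : NeZero P := ⟨hPp.ne_zero⟩
  have hP0 : (0 : ℝ) < P := by exact_mod_cast hPp.pos
  obtain ⟨Y, hY1, hY2⟩ := hP₀ P hPp hP2
  have h2m : (0 : ℝ) < 2 ^ m := by positivity
  have h2m1 : (2 : ℝ) ≤ 2 ^ m := by
    calc (2 : ℝ) = 2 ^ 1 := by norm_num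
      _ ≤ 2 ^ m := pow_le_pow_right₀ (by norm_num) hm
  -- v
  set q : ℝ := ρ * P / 2 ^ (m + 2) with hq
  have hq2 : 2 ≤ q := by
    rw [hq, le_div_iff₀ (by positivity)]
    calc (2 : ℝ) * 2 ^ (m + 2) = 2 ^ (m + 3) := by ring
      _ ≤ _ := hP3'
  set v : ℕ := ⌊q⌋₊ with hv
  have hv1 : (v : ℝ) ≤ q := Nat.floor_le (by linarith)
  have hv2 : q < v + 1 := Nat.lt_floor_add_one q
  have hv3 : q / 2 ≤ v := by linarith
  have hv4 : 1 ≤ v := by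
    have : (0 : ℝ) < v := by linarith
    exact_mod_cast this
  -- T
  set T : ℕ := ⌊(D : ℝ) * 2 ^ (2 * m + 4) / ρ ^ 2⌋₊ + 1 with hT
  have hT1 : (D : ℝ) * 2 ^ (2 * m + 4) / ρ ^ 2 < T := by
    rw [hT]
    push_cast
    exact Nat.lt_floor_add_one _
  have hT2 : (T : ℝ) ≤ (D : ℝ) * 2 ^ (2 * m + 4) / ρ ^ 2 + 1 := by
    rw [hT]
    push_cast
    have := Nat.floor_le (show 0 ≤ (D : ℝ) * 2 ^ (2 * m + 4) / ρ ^ 2 by positivity)
    linarith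
  have hDP : (D : ℝ) * P ^ 2 < 4 * (T * (v : ℝ) ^ 2) := by
    have e1 : (q / 2) ^ 2 ≤ (v : ℝ) ^ 2 := pow_le_pow_left₀ (by linarith) hv3 2
    have e2 : (D : ℝ) * 2 ^ (2 * m + 4) / ρ ^ 2 * (q / 2) ^ 2 = D * P ^ 2 / 4 := by
      rw [hq]
      have : (2 : ℝ) ^ (2 * m + 4) = (2 ^ (m + 2)) ^ 2 := by ring
      rw [this]
      field_simp
      norm_num
    have e3 : (0 : ℝ) < (q / 2) ^ 2 := by positivity
    have e4 : (D : ℝ) * 2 ^ (2 * m + 4) / ρ ^ 2 * (q / 2) ^ 2 < T * (q / 2) ^ 2 :=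
      mul_lt_mul_of_pos_right hT1 e3
    have e5 : (T : ℝ) * (q / 2) ^ 2 ≤ T * (v : ℝ) ^ 2 :=
      mul_le_mul_of_nonneg_left e1 (by positivity)
    linarith
  have hYv : ∀ x ∈ Y, ∑ i, (x i).valMinAbs ^ 2 < (T : ℤ) * (v : ℤ) ^ 2 := by
    intro x _
    have e1 : 4 * ∑ i, (x i).valMinAbs ^ 2 ≤ (D : ℤ) * (P : ℤ) ^ 2 := by
      rw [Finset.mul_sum]
      calc ∑ i : Fin D, 4 * (x i).valMinAbs ^ 2 ≤ ∑ _i : Fin D, (P : ℤ) ^ 2 :=
            Finset.sum_le_sum fun i _ => vma P (x i)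
        _ = (D : ℤ) * (P : ℤ) ^ 2 := by simp
    have e2 : (D : ℤ) * (P : ℤ) ^ 2 < 4 * ((T : ℤ) * (v : ℤ) ^ 2) := by
      have : (((D : ℤ) * (P : ℤ) ^ 2 : ℤ) : ℝ) < ((4 * ((T : ℤ) * (v : ℤ) ^ 2) : ℤ) : ℝ) := by
        push_cast
        exact hDP
      exact_mod_cast this
    linarith
  obtain ⟨X, _, hX2, hX3⟩ := hS P D k m M v T hm hk hv4 Y Λ hΛ1 hΛ2 hY1 hYv
  -- B
  set B : Finset (ZMod P) := (Finset.Icc (-(2 ^ m * (v : ℤ))) (2 ^ m * (v : ℤ))).image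
    (fun b : ℤ => (b : ZMod P)) with hB
  have hBc : (B.card : ℝ) ≤ 2 ^ (m + 1) * v + 1 := by
    have h1 : B.card ≤ (Finset.Icc (-(2 ^ m * (v : ℤ))) (2 ^ m * (v : ℤ))).card :=
      Finset.card_image_le
    rw [Int.card_Icc] at h1
    have h2 : ((2 ^ m * (v : ℤ)) + 1 - -(2 ^ m * (v : ℤ))).toNat = 2 ^ (m + 1) * v + 1 := by
      have : ((2 ^ m * (v : ℤ)) + 1 - -(2 ^ m * (v : ℤ))) = ((2 ^ (m + 1) * v + 1 : ℕ) : ℤ) := by
        push_cast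
        ring
      rw [this]
      exact Int.toNat_natCast _
    rw [h2] at h1
    exact_mod_cast h1
  have hBρ : (B.card : ℝ) ≤ ρ * P := by
    have e1 : (2 : ℝ) ^ (m + 1) * v ≤ ρ * P / 2 := by
      calc (2 : ℝ) ^ (m + 1) * v ≤ 2 ^ (m + 1) * q := mul_le_mul_of_nonneg_left hv1 (by positivity)
        _ = ρ * P / 2 := by
          rw [hq]
          have : (2 : ℝ) ^ (m + 2) = 2 ^ (m + 1) * 2 := by ring
          rw [this]
          field_simp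
    have e2 : (16 : ℝ) ≤ 2 ^ (m + 3) := by
      calc (16 : ℝ) = 2 * 8 := by norm_num
        _ ≤ 2 ^ m * 8 := by linarith
        _ = 2 ^ (m + 3) := by ring
    linarith
  have hABS := hA P N D k m hm (by omega) hN hD hP1 X B (by
    intro s c hs1 hs2 hX i
    obtain ⟨b, hb1, hb2⟩ := hX3 s c hs1 hs2 hX i
    rw [hB, Finset.mem_image]
    refine ⟨b, ?_, hb2⟩
    rw [Finset.mem_Icc]
    exact abs_le.1 hb1) (by
    have e1 : (B.card : ℝ) / P ≤ ρ := by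
      rw [div_le_iff₀ hP0]
      exact hBρ
    have e2 : ((B.card : ℝ) / P) ^ D ≤ ρ ^ D := pow_le_pow_left₀ (by positivity) e1 D
    calc (2 : ℝ) ^ (m + 1) * N * ((B.card : ℝ) / P) ^ D ≤ 2 ^ (m + 1) * N * ρ ^ D :=
          mul_le_mul_of_nonneg_left e2 (by positivity)
      _ = (2 ^ (m + 2) * (N : ℝ) * ρ ^ D) / 2 := by ring
      _ ≤ 1 / 2 := by rw [hρD])
  refine LB_mono hABS ?_
  -- final inequality
  have hMr : (1 : ℝ) ≤ M := by exact_mod_cast hM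
  have hTM : (T : ℝ) + 2 ^ (2 * m + 1) * M ≤ 2 ^ (2 * m + 3) * M := by
    have e1 : (D : ℝ) * 2 ^ (2 * m + 4) / ρ ^ 2 ≤ 2 ^ (2 * m) * M := by
      rw [div_le_iff₀ (by positivity)]
      have : (2 : ℝ) ^ (2 * m + 4) = 2 ^ (2 * m) * 16 := by ring
      rw [this]
      have h4 : (0 : ℝ) < 2 ^ (2 * m) := by positivity
      have h5 : (0 : ℝ) < D := by exact_mod_cast hD
      nlinarith
    have e2 : (1 : ℝ) ≤ 2 ^ (2 * m) * M := by
      have : (1 : ℝ) ≤ 2 ^ (2 * m) := one_le_pow₀ (by norm_num)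
      nlinarith
    have e3 : (2 : ℝ) ^ (2 * m + 1) = 2 ^ (2 * m) * 2 := by ring
    have e4 : (2 : ℝ) ^ (2 * m + 3) = 2 ^ (2 * m) * 8 := by ring
    rw [e3, e4]
    have e5 : (0 : ℝ) < 2 ^ (2 * m) * M := by positivity
    linarith
  have hXc : τ * (P : ℝ) ^ D * y ≤ X.card * (2 ^ (2 * m + 3) * M) := by
    calc τ * (P : ℝ) ^ D * y ≤ (Y.card : ℝ) * Λ.card := by
          apply mul_le_mul hY2 hΛ3 hy (by positivity)
      _ ≤ X.card * ((T : ℝ) + 2 ^ (2 * m + 1) * M) := hX2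
      _ ≤ X.card * (2 ^ (2 * m + 3) * M) := mul_le_mul_of_nonneg_left hTM (by positivity)
  have hM0 : (0 : ℝ) < M := by linarith
  have hPD : (0 : ℝ) < (P : ℝ) ^ D := by positivity
  have key : τ * (y / M) / 2 ^ (2 * m + 3) ≤ (X.card : ℝ) / (P : ℝ) ^ D := by
    rw [le_div_iff₀ hPD, div_mul_eq_mul_div, div_le_iff₀ (by positivity)]
    calc τ * (y / M) * (P : ℝ) ^ D = (τ * (P : ℝ) ^ D * y) / M := by ring
      _ ≤ (X.card * (2 ^ (2 * m + 3) * M)) / M := by gcongr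
      _ = X.card * 2 ^ (2 * m + 3) := by field_simp
  calc (N : ℝ) * τ * (y / M) / 2 ^ (2 * m + 4)
      = (N : ℝ) / 2 * (τ * (y / M) / 2 ^ (2 * m + 3)) := by
        have : (2 : ℝ) ^ (2 * m + 4) = 2 * 2 ^ (2 * m + 3) := by ring
        rw [this]
        field_simp
    _ ≤ (N : ℝ) / 2 * ((X.card : ℝ) / (P : ℝ) ^ D) :=
        mul_le_mul_of_nonneg_left key (by positivity)

end Vale.Agent.P057K.LevelX

namespace Vale.Agent.P057K

theorem level (hA : S_ABS) (hS : S_SHELL) : S_LEVEL := by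
  intro k m N D M y τ hm hk hN hD hM h32 hy hτ hLB hDens
  have hN0 : (0 : ℝ) < N := by exact_mod_cast hN
  have hD0 : (0 : ℝ) < D := by exact_mod_cast hD
  have hbase : (0 : ℝ) < 2 ^ (m + 2) * (N : ℝ) := by positivity
  set b : ℝ := 2 ^ (m + 2) * (N : ℝ) with hb
  have hρ0 : 0 < b ^ (-((1 : ℝ) / D)) := Real.rpow_pos_of_pos hbase _
  refine LevelX.level_aux k m N D M y τ (b ^ (-((1 : ℝ) / D))) hA hS hm hk hN hD hM hρ0 ?_ ?_
    hy hτ hLB hDens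
  · rw [← hb, ← Real.rpow_natCast, ← Real.rpow_mul hbase.le]
    have : -((1 : ℝ) / D) * (D : ℝ) = -1 := by field_simp
    rw [this, Real.rpow_neg_one]
    exact mul_inv_cancel₀ hbase.ne'
  · rw [← Real.rpow_natCast, ← Real.rpow_mul hbase.le]
    have : -((1 : ℝ) / D) * ((2 : ℕ) : ℝ) = -((2 : ℝ) / D) := by
      push_cast
      ring
    rw [this, Real.rpow_neg hbase.le]
    have h2 : 0 < b ^ ((2 : ℝ) / D) := Real.rpow_pos_of_pos hbase _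
    rw [← div_eq_mul_inv, le_div_iff₀ h2]
    exact h32

end Vale.Agent.P057K
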