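import Vale.Agent.P057K.Defs

/-!
# P057K: Newton forms and finite differences
-/

set_option autoImplicit false

namespace Vale.Agent.P057K

open Finset fwdDiff

namespace NewtX

variable {R : Type*} [CommRing R]

lemma diff_eq (s : ℕ) (w : ℕ → R) (j : ℕ) : diff s w j = (fwdDiff (1 : ℕ))^[s] w j := by
  rw [fwdDiff_iter_eq_sum_shift]
  unfold diff
  refine Finset.sum_congr rfl fun i _ => ?_
  rw [smul_eq_mul, mul_one, zsmul_eq_mul]
  push_cast
  ring

lemma fd_zero_fun (t : ℕ) : (fwdDiff (1 : ℕ))^[t] (fun _ : ℕ => (0 : R)) = fun _ => 0 := by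
  induction t with
  | zero => rfl
  | succ t ih => rw [Function.iterate_succ_apply, fwdDiff_const, ih]

lemma newt_zero (c : ℕ → R) : newt 0 c = fun _ => c 0 := by
  ext j
  simp [newt]

lemma newt_at_zero (m : ℕ) (c : ℕ → R) : newt m c 0 = c 0 := by
  unfold newt
  rw [Finset.sum_range_succ']
  simp

lemma fd_newt_succ (m : ℕ) (c : ℕ → R) :
    fwdDiff (1 : ℕ) (newt (m + 1) c) = newt m (fun i => c (i + 1)) := by
  ext j
  change newt (m + 1) c (j + 1) - newt (m + 1) c j = _
  unfold newt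
  rw [← Finset.sum_sub_distrib, Finset.sum_range_succ']
  have h0 : ((j + 1).choose 0 : R) * c 0 - (j.choose 0 : R) * c 0 = 0 := by simp
  rw [h0, add_zero]
  refine Finset.sum_congr rfl fun i _ => ?_
  rw [Nat.choose_succ_succ]
  push_cast
  ring

lemma fd_iter_newt (s r : ℕ) (c : ℕ → R) :
    (fwdDiff (1 : ℕ))^[s] (newt (s + r) c) = newt r (fun i => c (i + s)) := by
  induction s generalizing c with
  | zero => simp
  | succ s ih =>
    rw [Function.iterate_succ_apply]
    have h1 : s + 1 + r = (s + r) + 1 := by ring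
    rw [h1, fd_newt_succ, ih]
    refine congrArg (newt r) (funext fun i => congrArg c ?_)
    ring

lemma fd_top (s : ℕ) (c : ℕ → R) : (fwdDiff (1 : ℕ))^[s] (newt s c) = fun _ => c s := by
  have := fd_iter_newt s 0 c
  rw [add_zero, newt_zero] at this
  rw [this]
  ext j
  simp

lemma fd_iter_lt (s t : ℕ) (h : s < t) (F : ℕ → R) (a : R)
    (hF : (fwdDiff (1 : ℕ))^[s] F = fun _ => a) : (fwdDiff (1 : ℕ))^[t] F = fun _ => 0 := by
  obtain ⟨r, rfl⟩ := Nat.exists_eq_add_of_lt h
  have h1 : s + r + 1 = r + 1 + s := by ring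
  rw [h1, Function.iterate_add_apply, hF, Function.iterate_succ_apply, fwdDiff_const, fd_zero_fun]

lemma diff_top (m : ℕ) (c : ℕ → R) (s : ℕ) (hs : s ≤ m) : diff s (newt m c) 0 = c s := by
  obtain ⟨r, rfl⟩ := Nat.exists_eq_add_of_le hs
  rw [diff_eq, fd_iter_newt, newt_at_zero, zero_add]

lemma diff_zero (s t : ℕ) (e : ℕ → R) (j : ℕ) (h : s < t) : diff t (newt s e) j = 0 := by
  rw [diff_eq, fd_iter_lt s t h _ _ (fd_top s e)]

lemma newton (n : ℕ) (F : ℕ → R) (h : ∀ t, n < t → (fwdDiff (1 : ℕ))^[t] F 0 = 0) (j : ℕ) :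
    F j = newt n (fun t => (fwdDiff (1 : ℕ))^[t] F 0) j := by
  have h1 := shift_eq_sum_fwdDiff_iter (1 : ℕ) F j 0
  rw [zero_add, smul_eq_mul, mul_one] at h1
  rw [h1]
  unfold newt
  have e1 : ∀ k, j.choose k • (fwdDiff (1 : ℕ))^[k] F 0
      = (j.choose k : R) * (fwdDiff (1 : ℕ))^[k] F 0 := fun k => by rw [nsmul_eq_mul]
  rw [Finset.sum_congr rfl fun k _ => e1 k]
  have e2 : ∑ k ∈ range (j + 1), (j.choose k : R) * (fwdDiff (1 : ℕ))^[k] F 0
      = ∑ k ∈ range (j + n + 1), (j.choose k : R) * (fwdDiff (1 : ℕ))^[k] F 0 := by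
    refine Finset.sum_subset (fun x hx => by rw [mem_range] at *; omega) fun x _ hx => ?_
    rw [mem_range, not_lt] at hx
    rw [Nat.choose_eq_zero_of_lt (by omega)]
    simp
  have e3 : ∑ k ∈ range (n + 1), (j.choose k : R) * (fwdDiff (1 : ℕ))^[k] F 0
      = ∑ k ∈ range (j + n + 1), (j.choose k : R) * (fwdDiff (1 : ℕ))^[k] F 0 := by
    refine Finset.sum_subset (fun x hx => by rw [mem_range] at *; omega) fun x _ hx => ?_
    rw [mem_range, not_lt] at hx
    rw [h x (by omega), mul_zero]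
  rw [e2, e3]

lemma fd_mul (f g : ℕ → R) : fwdDiff (1 : ℕ) (fun j => f j * g j)
    = (fun j => fwdDiff (1 : ℕ) f j * g (j + 1)) + fun j => f j * fwdDiff (1 : ℕ) g j := by
  ext j
  simp only [fwdDiff, Pi.add_apply]
  ring

lemma fd_shift (g : ℕ → R) (q : ℕ) (b : R) (h : (fwdDiff (1 : ℕ))^[q] g = fun _ => b) :
    (fwdDiff (1 : ℕ))^[q] (fun j => g (j + 1)) = fun _ => b := by
  ext j
  rw [fwdDiff_iter_comp_add (1 : ℕ) g 1 q j, h]

lemma fd_iter_mul (n : ℕ) : ∀ (p q : ℕ), p + q = n → ∀ (f g : ℕ → R) (a b : R),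
    (fwdDiff (1 : ℕ))^[p] f = (fun _ => a) → (fwdDiff (1 : ℕ))^[q] g = (fun _ => b) →
    (fwdDiff (1 : ℕ))^[n] (fun j => f j * g j) = fun _ => (n.choose p : R) * (a * b) := by
  induction n with
  | zero =>
    intro p q h f g a b hf hg
    obtain ⟨rfl, rfl⟩ : p = 0 ∧ q = 0 := by omega
    simp only [Function.iterate_zero, id_eq] at hf hg ⊢
    subst hf
    subst hg
    simp
  | succ n ih =>
    intro p q h f g a b hf hg
    rcases Nat.eq_zero_or_pos p with rfl | hp
    · obtain rfl : q = n + 1 := by omega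
      simp only [Function.iterate_zero, id_eq] at hf
      subst hf
      have h1 : (fun j => a * g j) = a • g := by
        ext j
        simp
      rw [h1, fwdDiff_iter_const_smul, hg]
      ext j
      simp
    rcases Nat.eq_zero_or_pos q with rfl | hq
    · obtain rfl : p = n + 1 := by omega
      simp only [Function.iterate_zero, id_eq] at hg
      subst hg
      have h1 : (fun j => f j * b) = b • f := by
        ext j
        simp [mul_comm]
      rw [h1, fwdDiff_iter_const_smul, hf]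
      ext j
      simp [mul_comm]
    obtain ⟨p', rfl⟩ : ∃ p', p = p' + 1 := ⟨p - 1, by omega⟩
    obtain ⟨q', rfl⟩ : ∃ q', q = q' + 1 := ⟨q - 1, by omega⟩
    rw [Function.iterate_succ_apply, fd_mul, fwdDiff_iter_add]
    have h1 := ih p' (q' + 1) (by omega) (fwdDiff (1 : ℕ) f) (fun j => g (j + 1)) a b hf
      (fd_shift g _ b hg)
    have h2 := ih (p' + 1) q' (by omega) f (fwdDiff (1 : ℕ) g) a b hf hg
    rw [h1, h2]
    ext j
    simp only [Pi.add_apply]
    rw [Nat.choose_succ_succ]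
    push_cast
    ring

end NewtX

theorem n1 : S_N1 := fun m c s hs => NewtX.diff_top m c s hs

theorem n1p : S_N1P := fun _ m c s hs => NewtX.diff_top m c s hs

theorem n4 : S_N4 := fun s t e j h => NewtX.diff_zero s t e j h

theorem n4p : S_N4P := fun _ s t e j h => NewtX.diff_zero s t e j h

theorem n2 : S_N2 := by
  intro k s w hw
  set b : ℕ → ℤ := fun t => (fwdDiff (1 : ℕ))^[t] w 0 with hb
  refine ⟨b, fun j => ?_⟩
  induction j using Nat.strong_induction_on with
  | _ j ih =>
    intro hj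
    by_cases hjs : j ≤ s
    · have h1 := shift_eq_sum_fwdDiff_iter (1 : ℕ) w j 0
      rw [zero_add, smul_eq_mul, mul_one] at h1
      rw [h1]
      unfold newt
      have e1 : ∀ i, j.choose i • (fwdDiff (1 : ℕ))^[i] w 0 = (j.choose i : ℤ) * b i := fun i => by
        rw [nsmul_eq_mul]
      rw [Finset.sum_congr rfl fun i _ => e1 i]
      refine Finset.sum_subset (fun x hx => by rw [mem_range] at *; omega) fun x _ hx => ?_
      rw [mem_range, not_lt] at hx
      rw [Nat.choose_eq_zero_of_lt (by omega)]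
      simp
    · obtain ⟨r, rfl⟩ : ∃ r, j = r + (s + 1) := ⟨j - (s + 1), by omega⟩
      have h1 := hw r (by omega)
      have h2 := NewtX.diff_zero s (s + 1) b r (by omega)
      unfold diff at h1 h2
      rw [Finset.sum_range_succ] at h1 h2
      simp only [Nat.sub_self, pow_zero, Nat.choose_self, Nat.cast_one, one_mul] at h1 h2
      have h3 : ∑ i ∈ range (s + 1), (-1 : ℤ) ^ (s + 1 - i) * ((s + 1).choose i : ℤ) * w (r + i)
          = ∑ i ∈ range (s + 1), (-1 : ℤ) ^ (s + 1 - i) * ((s + 1).choose i : ℤ)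
            * newt s b (r + i) := by
        refine Finset.sum_congr rfl fun i hi => ?_
        rw [mem_range] at hi
        rw [ih (r + i) (by omega) (by omega)]
      rw [h3] at h1
      linarith

theorem n3 : S_N3 := by
  intro s b
  set F : ℕ → ℤ := fun j => newt s b j * newt s b j with hF
  have h1 : (fwdDiff (1 : ℕ))^[2 * s] F = fun _ => ((2 * s).choose s : ℤ) * (b s * b s) :=
    NewtX.fd_iter_mul (2 * s) s s (by ring) _ _ _ _ (NewtX.fd_top s b) (NewtX.fd_top s b)
  refine ⟨fun t => (fwdDiff (1 : ℕ))^[t] F 0, fun j => ?_, ?_⟩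
  · have h2 := NewtX.newton (2 * s) F (fun t ht => by
      rw [NewtX.fd_iter_lt (2 * s) t ht F _ h1]) j
    rw [← h2, hF, sq]
  · simp only
    rw [h1, sq]

end Vale.Agent.P057K
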