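import Vale.Agent.P057K.Defs

set_option autoImplicit false

namespace Vale.Agent.P057K

open Filter Topology

namespace OptX

theorem copt_eq (n : ℕ) (hn : 1 ≤ n) (a C : ℝ) (ha : 0 < a) (hC : 0 < C) :
    ∃ lam : ℝ, 0 < lam ∧ a * lam + C * (2 / lam) ^ ((1 : ℝ) / n) = copt n a C := by
  have hn0 : (0 : ℝ) < n := by exact_mod_cast hn
  have hn1 : (0 : ℝ) < (n : ℝ) + 1 := by linarith
  obtain ⟨B, hB, hCB⟩ : ∃ B : ℝ, 0 < B ∧ C = n * B := ⟨C / n, by positivity, by field_simp⟩
  set p : ℝ := (1 : ℝ) / (n + 1) with hp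
  set q : ℝ := (n : ℝ) / (n + 1) with hq
  have hpq : p + q = 1 := by rw [hp, hq]; field_simp; ring
  have hqp : (1 : ℝ) / n * q = p := by rw [hp, hq]; field_simp
  refine ⟨Real.exp (q * (Real.log B - Real.log a) + p * Real.log 2), Real.exp_pos _, ?_⟩
  have e1 : a * Real.exp (q * (Real.log B - Real.log a) + p * Real.log 2) =
      Real.exp (p * Real.log a + q * Real.log B + p * Real.log 2) := by
    nth_rewrite 1 [← Real.exp_log ha]
    rw [← Real.exp_add]
    congr 1
    have : p = 1 - q := by linarith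
    rw [this]
    ring
  have e2 : (2 / Real.exp (q * (Real.log B - Real.log a) + p * Real.log 2)) ^ ((1 : ℝ) / n) =
      Real.exp (p * (Real.log 2 - Real.log B + Real.log a)) := by
    have h2 : (2 : ℝ) / Real.exp (q * (Real.log B - Real.log a) + p * Real.log 2) =
        Real.exp (q * (Real.log 2 - Real.log B + Real.log a)) := by
      nth_rewrite 1 [← Real.exp_log (show (0 : ℝ) < 2 by norm_num)]
      rw [← Real.exp_sub]
      congr 1
      have : p = 1 - q := by linarith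
      rw [this]
      ring
    rw [h2, ← Real.exp_mul]
    congr 1
    rw [← hqp]
    ring
  have e3 : C * Real.exp (p * (Real.log 2 - Real.log B + Real.log a)) =
      n * Real.exp (p * Real.log a + q * Real.log B + p * Real.log 2) := by
    rw [hCB, mul_assoc]
    congr 1
    nth_rewrite 1 [← Real.exp_log hB]
    rw [← Real.exp_add]
    congr 1
    have : q = 1 - p := by linarith
    rw [this]
    ring
  rw [e1, e2, e3]
  unfold copt
  have e4 : C / n = B := by rw [hCB]; field_simp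
  rw [← hp, ← hq, e4, Real.rpow_def_of_pos ha, Real.rpow_def_of_pos hB,
    Real.rpow_def_of_pos (show (0 : ℝ) < 2 by norm_num)]
  have e5 : Real.exp (p * Real.log a + q * Real.log B + p * Real.log 2) =
      Real.exp (Real.log a * p) * Real.exp (Real.log B * q) * Real.exp (Real.log 2 * p) := by
    rw [← Real.exp_add, ← Real.exp_add]
    congr 1
    ring
  rw [e5]
  ring

/-- the dimension -/
noncomputable def D (lam X : ℝ) : ℕ := ⌈lam * X⌉₊

theorem D_div (lam : ℝ) (hl : 0 < lam) :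
    Tendsto (fun X : ℝ => (D lam X : ℝ) / X) atTop (𝓝 lam) :=
  tendsto_nat_ceil_mul_div_atTop hl.le

theorem D_top (lam : ℝ) (hl : 0 < lam) :
    Tendsto (fun X : ℝ => (D lam X : ℝ)) atTop atTop :=
  tendsto_natCast_atTop_atTop.comp
    (tendsto_nat_ceil_atTop.comp (tendsto_id.const_mul_atTop hl))

theorem logD_div (lam : ℝ) (hl : 0 < lam) :
    Tendsto (fun X : ℝ => Real.log (D lam X) / X) atTop (𝓝 0) := by
  have h1 : Tendsto (fun x : ℝ => Real.log x / x) atTop (𝓝 0) :=
    Real.isLittleO_log_id_atTop.tendsto_div_nhds_zero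
  have h2 := (h1.comp (D_top lam hl)).mul (D_div lam hl)
  rw [zero_mul] at h2
  refine h2.congr' ?_
  filter_upwards [(D_top lam hl).eventually_gt_atTop 0] with X hX
  simp only [Function.comp]
  field_simp

/-- the bound for `log M` -/
noncomputable def G (n m : ℕ) (c lam X : ℝ) : ℝ :=
  c + Real.log (D lam X) + 2 / (D lam X) * (((m : ℝ) + 2) * Real.log 2 + X ^ (n + 1))

theorem G_div (n m : ℕ) (hn : 1 ≤ n) (c lam : ℝ) (hl : 0 < lam) :
    Tendsto (fun X : ℝ => G n m c lam X / X ^ n) atTop (𝓝 (2 / lam)) := by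
  have hX : Tendsto (fun X : ℝ => X ^ n) atTop atTop := tendsto_pow_atTop (by omega)
  have t1 : Tendsto (fun X : ℝ => c / X ^ n) atTop (𝓝 0) := tendsto_const_nhds.div_atTop hX
  have t2 : Tendsto (fun X : ℝ => Real.log (D lam X) / X ^ n) atTop (𝓝 0) := by
    refine squeeze_zero' ?_ ?_ (logD_div lam hl)
    · filter_upwards [(D_top lam hl).eventually_ge_atTop 1, eventually_ge_atTop (1 : ℝ)] with X h1 h2
      have : 0 ≤ Real.log (D lam X) := Real.log_nonneg h1
      positivity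
    · filter_upwards [(D_top lam hl).eventually_ge_atTop 1, eventually_ge_atTop (1 : ℝ)] with X h1 h2
      have h3 : 0 ≤ Real.log (D lam X) := Real.log_nonneg h1
      have h4 : X ≤ X ^ n := le_self_pow₀ h2 (by omega)
      have h5 : 0 < X := by linarith
      exact div_le_div_of_nonneg_left h3 h5 h4
  have t3 : Tendsto (fun X : ℝ => (2 * (((m : ℝ) + 2) * Real.log 2)) /
      ((D lam X : ℝ) * X ^ n)) atTop (𝓝 0) :=
    tendsto_const_nhds.div_atTop ((D_top lam hl).atTop_mul_atTop₀ hX)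
  have t4 : Tendsto (fun X : ℝ => 2 / ((D lam X : ℝ) / X)) atTop (𝓝 (2 / lam)) :=
    tendsto_const_nhds.div (D_div lam hl) hl.ne'
  have t := ((t1.add t2).add t3).add t4
  simp only [zero_add] at t
  refine t.congr' ?_
  filter_upwards [(D_top lam hl).eventually_gt_atTop 0, eventually_gt_atTop (0 : ℝ)] with X h1 h2
  unfold G
  field_simp
  ring

theorem U_div (n m : ℕ) (hn : 1 ≤ n) (a C c c' lam : ℝ) (hl : 0 < lam) :
    Tendsto (fun X : ℝ => (a * D lam X + C * (G n m c lam X) ^ ((1 : ℝ) / n) + c' +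
      Real.log (D lam X)) / X) atTop (𝓝 (a * lam + C * (2 / lam) ^ ((1 : ℝ) / n))) := by
  have hn0 : (n : ℝ) ≠ 0 := by
    have : (0 : ℝ) < n := by exact_mod_cast hn
    exact this.ne'
  have h2l : 0 < 2 / lam := by positivity
  have t1 : Tendsto (fun X : ℝ => a * ((D lam X : ℝ) / X)) atTop (𝓝 (a * lam)) :=
    (D_div lam hl).const_mul a
  have t2 : Tendsto (fun X : ℝ => C * (G n m c lam X / X ^ n) ^ ((1 : ℝ) / n)) atTop
      (𝓝 (C * (2 / lam) ^ ((1 : ℝ) / n))) :=
    ((G_div n m hn c lam hl).rpow_const (Or.inl h2l.ne')).const_mul C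
  have t3 : Tendsto (fun X : ℝ => c' / X) atTop (𝓝 0) := tendsto_const_nhds.div_atTop tendsto_id
  have t := ((t1.add t2).add t3).add (logD_div lam hl)
  simp only [add_zero] at t
  refine t.congr' ?_
  filter_upwards [(G_div n m hn c lam hl).eventually (lt_mem_nhds h2l),
    eventually_gt_atTop (0 : ℝ)] with X h1 h2
  have hXn : 0 < X ^ n := by positivity
  have hG : 0 < G n m c lam X := by
    have := mul_pos h1 hXn
    rwa [div_mul_cancel₀ _ hXn.ne'] at this
  have e : (G n m c lam X / X ^ n) ^ ((1 : ℝ) / n) = (G n m c lam X) ^ ((1 : ℝ) / n) / X := by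
    rw [Real.div_rpow hG.le hXn.le]
    congr 1
    rw [← Real.rpow_natCast, ← Real.rpow_mul h2.le]
    rw [mul_one_div_cancel hn0, Real.rpow_one]
  rw [e]
  field_simp

end OptX

open OptX in
theorem opt : S_OPT := by
  intro n m a C ε hn ha hC hε
  obtain ⟨lam, hlam, hco⟩ := copt_eq n hn a C ha hC
  set w : ℝ := lam + (2 / lam) ^ ((1 : ℝ) / n) with hw
  have hw0 : 0 < w := by positivity
  refine ⟨ε / (2 * w), by positivity, ?_⟩
  intro M₀ Q hQ
  set ε' := ε / (2 * w) with hε'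
  have hε'0 : 0 < ε' := by positivity
  set c : ℝ := Real.log ((M₀ : ℝ) + 3) + Real.log 32 with hc
  have hU := U_div n m hn (a + ε') (C + ε') c (Real.log Q) lam hlam
  have hlim : (a + ε') * lam + (C + ε') * (2 / lam) ^ ((1 : ℝ) / n) < copt n a C + ε := by
    have : (a + ε') * lam + (C + ε') * (2 / lam) ^ ((1 : ℝ) / n) = copt n a C + ε' * w := by
      rw [← hco, hw]; ring
    rw [this, hε']
    have : ε / (2 * w) * w = ε / 2 := by field_simp
    rw [this]
    linarith
  have hev := (hU.eventually (gt_mem_nhds hlim)).and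
    (((D_top lam hlam).eventually_ge_atTop 1).and (eventually_gt_atTop (0 : ℝ)))
  -- back to N
  have hXN : Tendsto (fun N : ℕ => (Real.log N) ^ ((1 : ℝ) / ((n : ℝ) + 1))) atTop atTop :=
    (tendsto_rpow_atTop (by positivity)).comp
      (Real.tendsto_log_atTop.comp tendsto_natCast_atTop_atTop)
  have hevN := (hXN.eventually hev).and (eventually_ge_atTop 1)
  obtain ⟨N₀, hN₀⟩ := eventually_atTop.1 hevN
  refine ⟨N₀, fun N hN => ?_⟩
  obtain ⟨⟨h1, h2, h3⟩, hN1⟩ := hN₀ N hN
  set X : ℝ := (Real.log N) ^ ((1 : ℝ) / ((n : ℝ) + 1)) with hX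
  set d : ℕ := D lam X with hd
  have hN0 : (0 : ℝ) < N := by exact_mod_cast hN1
  have hd1 : 1 ≤ d := by exact_mod_cast h2
  have hd0 : (0 : ℝ) < d := by exact_mod_cast hd1
  have hlogN : 0 ≤ Real.log N := Real.log_nonneg (by exact_mod_cast hN1)
  have hXpow : X ^ (n + 1) = Real.log N := by
    rw [hX]
    have e : (1 : ℝ) / ((n : ℝ) + 1) = (((n + 1 : ℕ) : ℝ))⁻¹ := by push_cast; rw [one_div]
    rw [e]
    exact Real.rpow_inv_natCast_pow hlogN (by omega)
  set Y : ℝ := 32 * (d : ℝ) * (2 ^ (m + 2) * (N : ℝ)) ^ ((2 : ℝ) / d) with hY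
  have hbase : (1 : ℝ) ≤ 2 ^ (m + 2) * (N : ℝ) := by
    have h5 : (1 : ℝ) ≤ 2 ^ (m + 2) := one_le_pow₀ (by norm_num)
    have h6 : (1 : ℝ) ≤ N := by exact_mod_cast hN1
    nlinarith
  have hpow1 : (1 : ℝ) ≤ (2 ^ (m + 2) * (N : ℝ)) ^ ((2 : ℝ) / d) :=
    Real.one_le_rpow hbase (by positivity)
  have hY1 : 1 ≤ Y := by
    have : (1 : ℝ) ≤ d := h2
    rw [hY]
    nlinarith
  have hY0 : 0 < Y := by linarith
  refine ⟨d, ⌈Y⌉₊ + M₀ + 1, hd1, by omega, by omega, ?_, ?_⟩
  · push_cast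
    have := Nat.le_ceil Y
    have h7 : (0 : ℝ) ≤ M₀ := Nat.cast_nonneg _
    linarith
  · have hMle : (((⌈Y⌉₊ + M₀ + 1 : ℕ)) : ℝ) ≤ ((M₀ : ℝ) + 3) * Y := by
      push_cast
      have h8 := (Nat.ceil_lt_add_one hY0.le).le
      have h7 : (0 : ℝ) ≤ M₀ := Nat.cast_nonneg _
      nlinarith
    have hM0 : (0 : ℝ) < ((⌈Y⌉₊ + M₀ + 1 : ℕ) : ℝ) := by positivity
    have hlogM : Real.log ((⌈Y⌉₊ + M₀ + 1 : ℕ) : ℝ) ≤ G n m c lam X := by
      refine (Real.log_le_log hM0 hMle).trans (le_of_eq ?_)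
      rw [Real.log_mul (by positivity) hY0.ne', hY, Real.log_mul (by positivity) (by positivity),
        Real.log_mul (by norm_num) hd0.ne', Real.log_rpow (by positivity),
        Real.log_mul (by positivity) hN0.ne', Real.log_pow]
      unfold G
      rw [← hd, hXpow, hc]
      push_cast
      ring
    have hlogM0 : 0 ≤ Real.log ((⌈Y⌉₊ + M₀ + 1 : ℕ) : ℝ) := by
      apply Real.log_nonneg
      have : 1 ≤ ⌈Y⌉₊ + M₀ + 1 := by omega
      exact_mod_cast this
    have hroot : (Real.log ((⌈Y⌉₊ + M₀ + 1 : ℕ) : ℝ)) ^ ((1 : ℝ) / n) ≤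
        (G n m c lam X) ^ ((1 : ℝ) / n) :=
      Real.rpow_le_rpow hlogM0 hlogM (by positivity)
    have h9 : (a + ε') * (d : ℝ) + (C + ε') * (G n m c lam X) ^ ((1 : ℝ) / n) + Real.log Q +
        Real.log d ≤ (copt n a C + ε) * X := by
      have := (div_lt_iff₀ h3).1 h1
      exact this.le
    refine le_trans ?_ h9
    have : 0 ≤ C + ε' := by positivity
    have h10 := mul_le_mul_of_nonneg_left hroot this
    linarith

end Vale.Agent.P057K
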