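import Vale.Agent.P057K.Newt

/-!
# P057K: thin shells over the inner set
-/

set_option autoImplicit false

namespace Vale.Agent.P057K

open Finset

namespace ShellX

lemma diff_add (s : ℕ) (a b : ℕ → ℤ) (j : ℕ) :
    diff s (fun i => a i + b i) j = diff s a j + diff s b j := by
  unfold diff
  rw [← sum_add_distrib]
  exact sum_congr rfl fun i _ => by ring

lemma diff_mul (s : ℕ) (c : ℤ) (a : ℕ → ℤ) (j : ℕ) :
    diff s (fun i => c * a i) j = c * diff s a j := by
  unfold diff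
  rw [mul_sum]
  exact sum_congr rfl fun i _ => by ring

lemma diff_const (s : ℕ) (hs : 0 < s) (c : ℤ) (j : ℕ) : diff s (fun _ => c) j = 0 := by
  have h1 := n4 0 s (fun _ => c) j hs
  have h2 : newt 0 (fun _ : ℕ => c) = fun _ => c := NewtX.newt_zero _
  rwa [h2] at h1

lemma abs_diff_le (n : ℕ) (r : ℕ → ℤ) (j : ℕ) (B : ℤ) (h : ∀ i, i ≤ n → |r (j + i)| ≤ B) :
    |diff n r j| ≤ 2 ^ n * B := by
  unfold diff
  refine (abs_sum_le_sum_abs _ _).trans ?_
  have h1 : ∀ i ∈ range (n + 1), |(-1 : ℤ) ^ (n - i) * (n.choose i : ℤ) * r (j + i)|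
      ≤ (n.choose i : ℤ) * B := by
    intro i hi
    rw [mem_range] at hi
    rw [abs_mul, abs_mul, abs_pow, abs_neg, abs_one, one_pow, one_mul, Nat.abs_cast]
    exact mul_le_mul_of_nonneg_left (h i (by omega)) (Nat.cast_nonneg _)
  refine (sum_le_sum h1).trans (le_of_eq ?_)
  rw [← sum_mul, ← Nat.cast_sum, Nat.sum_range_choose]
  push_cast
  ring

/-- arithmetic core: a sequence of values in the shell is constrained -/
theorem core (k m s v : ℕ) (hs : 1 ≤ s) (hsm : s ≤ m) (hmk : 2 * m < k) (t : ℤ)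
    (e a : ℕ → ℤ) (Λ : Finset ℤ) (hNo : NoPoly k (2 * m) Λ) (ha : ∀ j, j < k → a j ∈ Λ)
    (hr0 : ∀ j, j < k → 0 ≤ newt (2 * s) e j - (v : ℤ) ^ 2 * (t + 2 ^ (2 * m + 1) * a j))
    (hr1 : ∀ j, j < k → newt (2 * s) e j - (v : ℤ) ^ 2 * (t + 2 ^ (2 * m + 1) * a j)
      < (v : ℤ) ^ 2) : |e (2 * s)| ≤ 2 ^ (2 * m) * (v : ℤ) ^ 2 := by
  set r : ℕ → ℤ := fun j => newt (2 * s) e j - (v : ℤ) ^ 2 * (t + 2 ^ (2 * m + 1) * a j) with hr
  have hrabs : ∀ j, j < k → |r j| ≤ (v : ℤ) ^ 2 - 1 := by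
    intro j hj
    rw [abs_of_nonneg (hr0 j hj)]
    have := hr1 j hj
    have h2 : r j = newt (2 * s) e j - (v : ℤ) ^ 2 * (t + 2 ^ (2 * m + 1) * a j) := rfl
    omega
  have hdec : newt (2 * s) e
      = fun j => (v : ℤ) ^ 2 * t + ((v : ℤ) ^ 2 * 2 ^ (2 * m + 1) * a j + r j) := by
    ext j
    simp only [hr]
    ring
  have hv0 : (0 : ℤ) ≤ (v : ℤ) ^ 2 := by positivity
  have hadiff : ∀ j, j + 2 * s + 1 < k → diff (2 * s + 1) a j = 0 := by
    intro j hj
    have h1 := n4 (2 * s) (2 * s + 1) e j (by omega)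
    rw [hdec, diff_add, diff_const _ (by omega), diff_add, diff_mul, zero_add] at h1
    have h2 := abs_diff_le (2 * s + 1) r j ((v : ℤ) ^ 2 - 1) fun i hi => hrabs _ (by omega)
    have h3 : (2 : ℤ) ^ (2 * s + 1) ≤ 2 ^ (2 * m + 1) :=
      pow_le_pow_right₀ (by norm_num) (by omega)
    have h4 : |(v : ℤ) ^ 2 * 2 ^ (2 * m + 1) * diff (2 * s + 1) a j|
        ≤ 2 ^ (2 * s + 1) * ((v : ℤ) ^ 2 - 1) := by
      have : (v : ℤ) ^ 2 * 2 ^ (2 * m + 1) * diff (2 * s + 1) a j = -diff (2 * s + 1) r j := by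
        linarith
      rw [this, abs_neg]
      exact h2
    by_contra hne
    have h5 : 1 ≤ |diff (2 * s + 1) a j| := Int.one_le_abs hne
    have hE : (0 : ℤ) < 2 ^ (2 * m + 1) := by positivity
    rw [abs_mul, abs_of_nonneg (by positivity : (0 : ℤ) ≤ (v : ℤ) ^ 2 * 2 ^ (2 * m + 1))] at h4
    have h6 : (v : ℤ) ^ 2 * 2 ^ (2 * m + 1)
        ≤ (v : ℤ) ^ 2 * 2 ^ (2 * m + 1) * |diff (2 * s + 1) a j| :=
      le_mul_of_one_le_right (by positivity) h5
    have hS : (0 : ℤ) < 2 ^ (2 * s + 1) := by positivity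
    nlinarith
  obtain ⟨b, hb⟩ := n2 k (2 * s) a (fun j hj => hadiff j (by omega))
  set b' : ℕ → ℤ := fun i => if i ≤ 2 * s then b i else 0 with hb'
  have hnb : ∀ j, newt (2 * m) b' j = newt (2 * s) b j := by
    intro j
    unfold newt
    symm
    refine sum_subset_zero_on_sdiff (fun x hx => by rw [mem_range] at *; omega) ?_ ?_
    · intro x hx
      rw [mem_sdiff, mem_range, mem_range] at hx
      rw [hb']
      simp only
      rw [if_neg (by omega), mul_zero]
    · intro x hx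
      rw [mem_range] at hx
      rw [hb']
      simp only
      rw [if_pos (by omega)]
  have hz := hNo b' (fun j hj => by
    rw [hnb, ← hb j hj]
    exact ha j hj)
  have hconst : ∀ j, j < k → a j = b 0 := by
    intro j hj
    rw [hb j hj]
    unfold newt
    rw [sum_range_succ', sum_eq_zero, zero_add]
    · simp
    · intro i hi
      rw [mem_range] at hi
      have := hz (i + 1) (by omega) (by omega)
      rw [hb'] at this
      simp only at this
      rw [if_pos (by omega)] at this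
      rw [this, mul_zero]
  -- the top difference
  have htop := n1 (2 * s) e (2 * s) le_rfl
  have hF : diff (2 * s) (newt (2 * s) e) 0 = diff (2 * s) r 0 := by
    have h1 : diff (2 * s) (newt (2 * s) e) 0
        = diff (2 * s) (fun j => ((v : ℤ) ^ 2 * t + (v : ℤ) ^ 2 * 2 ^ (2 * m + 1) * b 0) + r j) 0 := by
      unfold diff
      refine sum_congr rfl fun i hi => ?_
      rw [mem_range] at hi
      rw [hdec]
      simp only
      rw [hconst (0 + i) (by omega)]
      ring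
    rw [h1, diff_add, diff_const _ (by omega), zero_add]
  rw [← htop, hF]
  have h2 := abs_diff_le (2 * s) r 0 ((v : ℤ) ^ 2 - 1) fun i hi => hrabs _ (by omega)
  have h3 : (2 : ℤ) ^ (2 * s) ≤ 2 ^ (2 * m) := pow_le_pow_right₀ (by norm_num) (by omega)
  have hS : (0 : ℤ) < 2 ^ (2 * s) := by positivity
  nlinarith

/-- the differences of a sequence in the shell are small -/
theorem shell_core (P D k m v : ℕ) [NeZero P] (hmk : 2 * m < k) (hv : 1 ≤ v)
    (Y : Finset (Fin D → ZMod P)) (Λ : Finset ℤ)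
    (hNo : NoPoly k (2 * m) Λ) (hGen : Gen P D k m Y) (t : ℤ) (X : Finset (Fin D → ZMod P))
    (hXY : X ⊆ Y) (hX : ∀ x ∈ X, ∃ a ∈ Λ,
      (∑ i, (x i).valMinAbs ^ 2) / (v : ℤ) ^ 2 = t + 2 ^ (2 * m + 1) * a)
    (s : ℕ) (c : ℕ → Fin D → ZMod P) (hs : 1 ≤ s) (hsm : s ≤ m)
    (hc : ∀ j, j < k → (fun i => newt s (fun t => c t i) j) ∈ X) (i : Fin D) :
    ∃ b : ℤ, |b| ≤ 2 ^ m * (v : ℤ) ∧ (b : ZMod P) = c s i := by
  choose b hb using hGen s c hsm fun j hj => hXY (hc j hj)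
  choose e he1 he2 using fun i => n3 s (b i)
  have hv2 : (0 : ℤ) < (v : ℤ) ^ 2 := by positivity
  -- the inner sequence
  have hx : ∀ j, ∃ a : ℤ, j < k → a ∈ Λ ∧
      (∑ i, (newt s (fun t => c t i) j).valMinAbs ^ 2) / (v : ℤ) ^ 2
        = t + 2 ^ (2 * m + 1) * a := by
    intro j
    by_cases hj : j < k
    · obtain ⟨a, ha1, ha2⟩ := hX _ (hc j hj)
      exact ⟨a, fun _ => ⟨ha1, ha2⟩⟩
    · exact ⟨0, fun h => absurd h hj⟩
  choose a ha using hx
  set ee : ℕ → ℤ := fun n => ∑ i, e i n with hee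
  have hnewt : ∀ j, newt (2 * s) ee j = ∑ i, newt (2 * s) (e i) j := by
    intro j
    unfold newt
    rw [sum_comm]
    refine sum_congr rfl fun n _ => ?_
    rw [hee, mul_sum]
  have hval : ∀ j, j < k → ∑ i, (newt s (fun t => c t i) j).valMinAbs ^ 2
      = newt (2 * s) ee j := by
    intro j hj
    rw [hnewt]
    refine sum_congr rfl fun i _ => ?_
    rw [hb i j hj, he1]
  have hmod : ∀ j, j < k → newt (2 * s) ee j - (v : ℤ) ^ 2 * (t + 2 ^ (2 * m + 1) * a j)
      = newt (2 * s) ee j % (v : ℤ) ^ 2 := by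
    intro j hj
    have h1 := (ha j hj).2
    rw [hval j hj] at h1
    rw [← h1, Int.emod_def]
  have hcore := core k m s v hs hsm hmk t ee a Λ hNo (fun j hj => (ha j hj).1)
    (fun j hj => by rw [hmod j hj]; exact Int.emod_nonneg _ hv2.ne')
    (fun j hj => by rw [hmod j hj]; exact Int.emod_lt_of_pos _ hv2)
  -- bound on `b i s`
  have hesum : ee (2 * s) = ((2 * s).choose s : ℤ) * ∑ i, (b i s) ^ 2 := by
    rw [hee, mul_sum]
    exact sum_congr rfl fun i _ => he2 i
  have hchoose : (1 : ℤ) ≤ ((2 * s).choose s : ℤ) := by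
    exact_mod_cast Nat.choose_pos (by omega : s ≤ 2 * s)
  have hsq : (b i s) ^ 2 ≤ (2 ^ m * (v : ℤ)) ^ 2 := by
    have h1 : (b i s) ^ 2 ≤ ∑ i, (b i s) ^ 2 :=
      single_le_sum (f := fun i => (b i s) ^ 2) (fun i _ => sq_nonneg _) (mem_univ i)
    have h2 : ∑ i, (b i s) ^ 2 ≤ ee (2 * s) := by
      rw [hesum]
      exact le_mul_of_one_le_left (sum_nonneg fun i _ => sq_nonneg _) hchoose
    have h3 : ee (2 * s) ≤ 2 ^ (2 * m) * (v : ℤ) ^ 2 := (le_abs_self _).trans hcore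
    have h4 : (2 ^ m * (v : ℤ)) ^ 2 = 2 ^ (2 * m) * (v : ℤ) ^ 2 := by
      rw [mul_pow, ← pow_mul]
      ring
    rw [h4]
    linarith
  refine ⟨b i s, abs_le_of_sq_le_sq hsq (by positivity), ?_⟩
  have h5 := n1 s (b i) s le_rfl
  have h6 := n1p P s (fun t => c t i) s le_rfl
  rw [← h5, ← h6]
  unfold diff
  push_cast
  refine sum_congr rfl fun l hl => ?_
  rw [mem_range] at hl
  congr 1
  rw [← hb i (0 + l) (by omega), ZMod.coe_valMinAbs]

end ShellX

theorem shell : S_SHELL := by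
  intro P D k m M v T _ hm hmk hv Y Λ hΛ hNo hGen hbound
  classical
  set f : (Fin D → ZMod P) → ℤ := fun x => ∑ i, (x i).valMinAbs ^ 2 with hf
  set q : (Fin D → ZMod P) → ℤ := fun x => f x / (v : ℤ) ^ 2 with hq
  set Xt : ℤ → Finset (Fin D → ZMod P) := fun t =>
    Y.filter fun x => ∃ a ∈ Λ, q x = t + 2 ^ (2 * m + 1) * a with hXt
  have hv2 : (0 : ℤ) < (v : ℤ) ^ 2 := by positivity
  have hE : (0 : ℤ) < 2 ^ (2 * m + 1) := by positivity
  set R : Finset ℤ := Finset.Ico (-(2 ^ (2 * m + 1) * (M : ℤ))) (T : ℤ) with hR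
  have hRcard : (R.card : ℝ) = (T : ℝ) + 2 ^ (2 * m + 1) * M := by
    have h1 : (R.card : ℤ) = (T : ℤ) + 2 ^ (2 * m + 1) * M := by
      have h0 : (0 : ℤ) ≤ 2 ^ (2 * m + 1) * (M : ℤ) := by positivity
      have h0' : (0 : ℤ) ≤ (T : ℤ) := Int.natCast_nonneg T
      rw [hR, Int.card_Ico, Int.toNat_of_nonneg (by linarith)]
      ring
    exact_mod_cast h1
  have hcount : Y.card * Λ.card ≤ ∑ t ∈ R, (Xt t).card := by
    rw [← card_product, ← card_sigma]
    refine card_le_card_of_injOn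
      (fun p => (⟨q p.1 - 2 ^ (2 * m + 1) * p.2, p.1⟩ : (_ : ℤ) × (Fin D → ZMod P))) ?_ ?_
    · rintro ⟨x, a⟩ hp
      rw [mem_coe, mem_product] at hp
      obtain ⟨hx, ha⟩ := hp
      simp only at hx ha
      have ha' := hΛ ha
      rw [mem_Icc] at ha'
      have hf0 : 0 ≤ f x := sum_nonneg fun i _ => sq_nonneg _
      have hq0 : 0 ≤ q x := Int.ediv_nonneg hf0 hv2.le
      have hqT : q x < T := by
        rw [hq]
        exact Int.ediv_lt_of_lt_mul hv2 (hbound x hx)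
      rw [mem_coe, mem_sigma]
      refine ⟨?_, ?_⟩
      · rw [hR, mem_Ico]
        constructor
        · have : 2 ^ (2 * m + 1) * a ≤ 2 ^ (2 * m + 1) * (M : ℤ) :=
            mul_le_mul_of_nonneg_left ha'.2 hE.le
          simp only
          linarith
        · have : 0 < 2 ^ (2 * m + 1) * a := mul_pos hE (by linarith)
          simp only
          linarith
      · rw [hXt, mem_filter]
        exact ⟨hx, a, ha, by ring⟩
    · rintro ⟨x, a⟩ _ ⟨x', a'⟩ _ h
      simp only [Sigma.mk.injEq, heq_eq_eq] at h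
      obtain ⟨h1, h2⟩ := h
      subst h2
      have h3 : 2 ^ (2 * m + 1) * a = 2 ^ (2 * m + 1) * a' := by linarith
      rw [mul_left_cancel₀ hE.ne' h3]
  have hex : ∃ t, (Y.card : ℝ) * Λ.card ≤ (Xt t).card * ((T : ℝ) + 2 ^ (2 * m + 1) * M) := by
    rcases R.eq_empty_or_nonempty with hRe | hRne
    · refine ⟨0, ?_⟩
      rw [hRe, sum_empty] at hcount
      have h1 : ((Y.card * Λ.card : ℕ) : ℝ) ≤ 0 := by exact_mod_cast hcount
      push_cast at h1
      refine h1.trans (by positivity)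
    · obtain ⟨t0, _, hmax⟩ := exists_max_image R (fun t => (Xt t).card) hRne
      refine ⟨t0, ?_⟩
      have h1 : Y.card * Λ.card ≤ R.card * (Xt t0).card := by
        refine hcount.trans ?_
        have := sum_le_card_nsmul R (fun t => (Xt t).card) _ hmax
        rwa [smul_eq_mul] at this
      have h2 : ((Y.card * Λ.card : ℕ) : ℝ) ≤ ((R.card * (Xt t0).card : ℕ) : ℝ) := by
        exact_mod_cast h1
      push_cast at h2
      rw [hRcard] at h2
      linarith
  obtain ⟨t, ht⟩ := hex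
  refine ⟨Xt t, filter_subset _ _, ht, ?_⟩
  intro s c hs hsm hc i
  refine ShellX.shell_core P D k m v hmk hv Y Λ hNo hGen t (Xt t) (filter_subset _ _) ?_ s c hs hsm
    hc i
  intro x hx
  rw [hXt, mem_filter] at hx
  exact hx.2

end Vale.Agent.P057K
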